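import Mathlib.Combinatorics.Pigeonhole
import Mathlib.Combinatorics.SimpleGraph.Acyclic
import Mathlib.Combinatorics.SimpleGraph.Metric
import Mathlib.Data.Set.Card
import Mathlib.Data.Set.Card.Arithmetic
import Mathlib.Data.Set.Finite.List
import Mathlib.GroupTheory.FinitelyPresentedGroup
import Mathlib.GroupTheory.FreeGroup.Reduce
import Mathlib.GroupTheory.GroupAction.Transitive
import Mathlib.GroupTheory.Perm.ViaEmbedding
import Mathlib.GroupTheory.Torsion
import Mathlib.Tactic

set_option linter.all false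

section

section

set_option linter.all false

namespace Vale.Agent.P192



variable {α : Type} [DecidableEq α]

/-- the element of the free group given by a letter -/
def lt (l : α × Bool) : FreeGroup α := FreeGroup.mk [l]

lemma lt_inv (l : α × Bool) : (lt l)⁻¹ = lt (l.1, !l.2) := by
  simp [lt, FreeGroup.inv_mk, FreeGroup.invRev]

lemma lt_norm (l : α × Bool) : (lt l).norm ≤ 1 := FreeGroup.norm_mk_le

lemma mk_cons (l : α × Bool) (L : List (α × Bool)) :
    FreeGroup.mk (l :: L) = lt l * FreeGroup.mk L := by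
  simp [lt]

variable {X : Type*} [MulAction (FreeGroup α) X]

/-- data for gluing the window `A \ B` periodically -/
structure Glue (α : Type) [DecidableEq α] (X : Type*) [MulAction (FreeGroup α) X] (k r : ℕ) where
  A : Set X
  B : Set X
  β : Fin k → X
  γ : Fin k → X
  r2 : 2 ≤ r
  hBA : B ⊆ A
  hβ : ∀ x ∈ A, x ∉ B → ∀ l : α × Bool, lt l • x ∉ A → ∃ a, β a = x
  hγ : ∀ x ∈ B, ∀ l : α × Bool, lt l • x ∈ A → lt l • x ∉ B → ∃ a, γ a = x
  hβA : ∀ a, β a ∈ A
  hγB : ∀ a, γ a ∈ B
  far1 : ∀ a (g : FreeGroup α), g.norm ≤ r → g • β a ∉ B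
  far2 : ∀ a (g : FreeGroup α), g.norm ≤ r → g • γ a ∈ A
  type1 : ∀ a b (g : FreeGroup α), g.norm ≤ 2 * r → (g • β a = β b ↔ g • γ a = γ b)
  type2 : ∀ a (g : FreeGroup α), g.norm ≤ r → (g • β a ∈ A ↔ g • γ a ∈ B)

namespace Glue

variable {k r : ℕ} (D : Glue α X k r)

open Classical in
/-- transfer from the collar of `A` to the collar of `B` -/
noncomputable def th (z : X) : X :=
  if h : ∃ p : Fin k × FreeGroup α, p.2.norm ≤ r ∧ p.2 • D.β p.1 = z then
    h.choose.2 • D.γ h.choose.1 else z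

open Classical in
/-- transfer from the collar of `B` to the collar of `A` -/
noncomputable def th' (z : X) : X :=
  if h : ∃ p : Fin k × FreeGroup α, p.2.norm ≤ r ∧ p.2 • D.γ p.1 = z then
    h.choose.2 • D.β h.choose.1 else z

lemma th_eq (a : Fin k) (g : FreeGroup α) (hg : g.norm ≤ r) :
    D.th (g • D.β a) = g • D.γ a := by
  have h : ∃ p : Fin k × FreeGroup α, p.2.norm ≤ r ∧ p.2 • D.β p.1 = g • D.β a := ⟨(a, g), hg, rfl⟩
  unfold th
  rw [dif_pos h]
  have h1 := h.choose_spec.1
  have h2 := h.choose_spec.2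
  set p := h.choose
  have h3 : (g⁻¹ * p.2) • D.β p.1 = D.β a := by
    rw [mul_smul, h2, inv_smul_smul]
  have h4 : (g⁻¹ * p.2).norm ≤ 2 * r := by
    have := FreeGroup.norm_mul_le g⁻¹ p.2
    rw [FreeGroup.norm_inv_eq] at this
    omega
  have h5 := (D.type1 _ _ _ h4).1 h3
  rw [mul_smul] at h5
  rw [← h5, smul_inv_smul]

lemma th'_eq (a : Fin k) (g : FreeGroup α) (hg : g.norm ≤ r) :
    D.th' (g • D.γ a) = g • D.β a := by
  have h : ∃ p : Fin k × FreeGroup α, p.2.norm ≤ r ∧ p.2 • D.γ p.1 = g • D.γ a := ⟨(a, g), hg, rfl⟩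
  unfold th'
  rw [dif_pos h]
  have h1 := h.choose_spec.1
  have h2 := h.choose_spec.2
  set p := h.choose
  have h3 : (g⁻¹ * p.2) • D.γ p.1 = D.γ a := by
    rw [mul_smul, h2, inv_smul_smul]
  have h4 : (g⁻¹ * p.2).norm ≤ 2 * r := by
    have := FreeGroup.norm_mul_le g⁻¹ p.2
    rw [FreeGroup.norm_inv_eq] at this
    omega
  have h5 := (D.type1 _ _ _ h4).2 h3
  rw [mul_smul] at h5
  rw [← h5, smul_inv_smul]

/-- collar of `A` of radius `p` -/
def colA (p : ℕ) : Set X := {z | ∃ a, ∃ g : FreeGroup α, g.norm ≤ p ∧ g • D.β a = z}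
/-- collar of `B` of radius `p` -/
def colB (p : ℕ) : Set X := {z | ∃ a, ∃ g : FreeGroup α, g.norm ≤ p ∧ g • D.γ a = z}

/-- neighbourhood of the window -/
def nb (p : ℕ) : Set X := {z | (z ∈ D.A ∧ z ∉ D.B) ∨ z ∈ D.colA p ∨ z ∈ D.colB p}

open Classical in
/-- chart -/
noncomputable def ch (t : ℤ) (z : X) : X × ℤ :=
  if z ∈ D.B then (D.th' z, t + 1) else if z ∈ D.A then (z, t) else (D.th z, t - 1)

lemma ch_B (t : ℤ) {z : X} (h : z ∈ D.B) : D.ch t z = (D.th' z, t + 1) := by simp [ch, h]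
lemma ch_W (t : ℤ) {z : X} (h : z ∈ D.A) (h' : z ∉ D.B) : D.ch t z = (z, t) := by simp [ch, h, h']
lemma ch_A (t : ℤ) {z : X} (h : z ∉ D.A) : D.ch t z = (D.th z, t - 1) := by
  have : z ∉ D.B := fun hb => h (D.hBA hb)
  simp [ch, h, this]

/-- the step map -/
noncomputable def st (l : α × Bool) (p : X × ℤ) : X × ℤ := D.ch p.2 (lt l • p.1)

/-- the window times the integers -/
def Om : Set (X × ℤ) := {p | p.1 ∈ D.A ∧ p.1 ∉ D.B}

lemma colA_mono {p q : ℕ} (h : p ≤ q) : D.colA p ⊆ D.colA q := by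
  rintro z ⟨a, g, hg, rfl⟩; exact ⟨a, g, hg.trans h, rfl⟩
lemma colB_mono {p q : ℕ} (h : p ≤ q) : D.colB p ⊆ D.colB q := by
  rintro z ⟨a, g, hg, rfl⟩; exact ⟨a, g, hg.trans h, rfl⟩

lemma nb_mono {p q : ℕ} (h : p ≤ q) : D.nb p ⊆ D.nb q := by
  rintro z (h1 | h1 | h1)
  · exact Or.inl h1
  · exact Or.inr (Or.inl (D.colA_mono h h1))
  · exact Or.inr (Or.inr (D.colB_mono h h1))

lemma colA_step {p : ℕ} {z : X} (h : z ∈ D.colA p) (l : α × Bool) : lt l • z ∈ D.colA (p + 1) := by
  obtain ⟨a, g, hg, rfl⟩ := h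
  refine ⟨a, lt l * g, ?_, by rw [mul_smul]⟩
  have := FreeGroup.norm_mul_le (lt l) g
  have := lt_norm l
  omega

lemma colB_step {p : ℕ} {z : X} (h : z ∈ D.colB p) (l : α × Bool) : lt l • z ∈ D.colB (p + 1) := by
  obtain ⟨a, g, hg, rfl⟩ := h
  refine ⟨a, lt l * g, ?_, by rw [mul_smul]⟩
  have := FreeGroup.norm_mul_le (lt l) g
  have := lt_norm l
  omega

lemma lt_inv_smul (l : α × Bool) (z : X) : lt (l.1, !l.2) • (lt l • z) = z := by
  rw [← lt_inv, inv_smul_smul]

lemma nb_step {p : ℕ} {z : X} (h : z ∈ D.nb p) (l : α × Bool) : lt l • z ∈ D.nb (p + 1) := by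
  rcases h with ⟨h1, h2⟩ | h1 | h1
  · by_cases hB : lt l • z ∈ D.B
    · right; right
      have hz' : lt (l.1, !l.2) • (lt l • z) ∈ D.A := by rw [lt_inv_smul]; exact h1
      have hz'' : lt (l.1, !l.2) • (lt l • z) ∉ D.B := by rw [lt_inv_smul]; exact h2
      obtain ⟨a, ha⟩ := D.hγ _ hB _ hz' hz''
      exact ⟨a, 1, by simp, by rw [one_smul, ha]⟩
    · by_cases hA : lt l • z ∈ D.A
      · left; exact ⟨hA, hB⟩
      · right; left
        obtain ⟨a, ha⟩ := D.hβ _ h1 h2 _ hA
        refine ⟨a, lt l, ?_, by rw [ha]⟩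
        have := lt_norm l
        omega
  · right; left; exact D.colA_step h1 l
  · right; right; exact D.colB_step h1 l

lemma colA_not_B {p : ℕ} (hp : p ≤ r) {z : X} (h : z ∈ D.colA p) : z ∉ D.B := by
  obtain ⟨a, g, hg, rfl⟩ := h
  exact D.far1 a g (hg.trans hp)

lemma colB_A {p : ℕ} (hp : p ≤ r) {z : X} (h : z ∈ D.colB p) : z ∈ D.A := by
  obtain ⟨a, g, hg, rfl⟩ := h
  exact D.far2 a g (hg.trans hp)

lemma ch_mem {z : X} (h : z ∈ D.nb r) (t : ℤ) : D.ch t z ∈ D.Om := by
  by_cases hB : z ∈ D.B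
  · rw [D.ch_B t hB]
    have : z ∈ D.colB r := by
      rcases h with ⟨_, h2⟩ | h1 | h1
      · exact absurd hB h2
      · exact absurd hB (D.colA_not_B le_rfl h1)
      · exact h1
    obtain ⟨a, g, hg, rfl⟩ := this
    rw [D.th'_eq a g hg]
    exact ⟨(D.type2 a g hg).2 hB, D.far1 a g hg⟩
  · by_cases hA : z ∈ D.A
    · rw [D.ch_W t hA hB]; exact ⟨hA, hB⟩
    · rw [D.ch_A t hA]
      have : z ∈ D.colA r := by
        rcases h with ⟨h1, _⟩ | h1 | h1
        · exact absurd h1 hA
        · exact h1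
        · exact absurd (D.colB_A le_rfl h1) hA
      obtain ⟨a, g, hg, rfl⟩ := this
      rw [D.th_eq a g hg]
      refine ⟨D.far2 a g hg, fun hb => hA ((D.type2 a g hg).2 hb)⟩

lemma ch_step {p : ℕ} (hp : p < r) {z : X} (h : z ∈ D.nb p) (t : ℤ) (l : α × Bool) :
    D.st l (D.ch t z) = D.ch t (lt l • z) := by
  by_cases hB : z ∈ D.B
  · have hc : z ∈ D.colB p := by
      rcases h with ⟨_, h2⟩ | h1 | h1
      · exact absurd hB h2
      · exact absurd hB (D.colA_not_B hp.le h1)
      · exact h1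
    rw [D.ch_B t hB]
    obtain ⟨a, g, hg, rfl⟩ := hc
    rw [D.th'_eq a g (hg.trans hp.le)]
    have hn : (lt l * g).norm ≤ r := by
      have := FreeGroup.norm_mul_le (lt l) g
      have := lt_norm l
      omega
    unfold st
    simp only
    rw [← mul_smul, ← mul_smul]
    have hyA : (lt l * g) • D.γ a ∈ D.A := D.far2 _ _ hn
    have hyB : (lt l * g) • D.β a ∉ D.B := D.far1 _ _ hn
    by_cases hy : (lt l * g) • D.γ a ∈ D.B
    · rw [D.ch_B t hy, D.ch_W (t+1) ((D.type2 _ _ hn).2 hy) hyB, D.th'_eq _ _ hn]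
    · have : (lt l * g) • D.β a ∉ D.A := fun h => hy ((D.type2 _ _ hn).1 h)
      rw [D.ch_W t hyA hy, D.ch_A (t+1) this, D.th_eq _ _ hn]
      simp
  · by_cases hA : z ∈ D.A
    · rw [D.ch_W t hA hB]; rfl
    · have hc : z ∈ D.colA p := by
        rcases h with ⟨h1, _⟩ | h1 | h1
        · exact absurd h1 hA
        · exact h1
        · exact absurd (D.colB_A hp.le h1) hA
      rw [D.ch_A t hA]
      obtain ⟨a, g, hg, rfl⟩ := hc
      rw [D.th_eq a g (hg.trans hp.le)]
      have hn : (lt l * g).norm ≤ r := by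
        have := FreeGroup.norm_mul_le (lt l) g
        have := lt_norm l
        omega
      unfold st
      simp only
      rw [← mul_smul, ← mul_smul]
      have hyA : (lt l * g) • D.γ a ∈ D.A := D.far2 _ _ hn
      have hyB : (lt l * g) • D.β a ∉ D.B := D.far1 _ _ hn
      by_cases hy : (lt l * g) • D.β a ∈ D.A
      · have : (lt l * g) • D.γ a ∈ D.B := (D.type2 _ _ hn).1 hy
        rw [D.ch_W t hy hyB, D.ch_B (t-1) this, D.th'_eq _ _ hn]
        simp
      · have : (lt l * g) • D.γ a ∉ D.B := fun h => hy ((D.type2 _ _ hn).2 h)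
        rw [D.ch_A t hy, D.ch_W (t-1) hyA this, D.th_eq _ _ hn]

lemma mem_nb {p : X × ℤ} (h : p ∈ D.Om) (q : ℕ) : p.1 ∈ D.nb q := Or.inl h

lemma ch_self {p : X × ℤ} (h : p ∈ D.Om) : D.ch p.2 p.1 = p := by
  rw [D.ch_W _ h.1 h.2]

lemma st_mem {p : X × ℤ} (h : p ∈ D.Om) (l : α × Bool) : D.st l p ∈ D.Om := by
  apply D.ch_mem
  have := D.nb_step (D.mem_nb h 0) l
  have hr := D.r2
  exact D.nb_mono (by omega) this

lemma st_inv {p : X × ℤ} (h : p ∈ D.Om) (l : α × Bool) : D.st (l.1, !l.2) (D.st l p) = p := by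
  have hr := D.r2
  have h1 := D.nb_step (D.mem_nb h 0) l
  have h2 := D.ch_step (p := 1) (by omega) h1 p.2 (l.1, !l.2)
  have h3 : D.st l p = D.ch p.2 (lt l • p.1) := rfl
  rw [h3, h2, lt_inv_smul, D.ch_self h]

/-- the permutation of the glued set defined by a generator -/
noncomputable def pm (a : α) : Equiv.Perm D.Om where
  toFun p := ⟨D.st (a, true) p.1, D.st_mem p.2 _⟩
  invFun p := ⟨D.st (a, false) p.1, D.st_mem p.2 _⟩
  left_inv p := Subtype.ext (D.st_inv p.2 (a, true))
  right_inv p := Subtype.ext (D.st_inv p.2 (a, false))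

/-- the homomorphism to permutations of the glued set -/
noncomputable def hom : FreeGroup α →* Equiv.Perm D.Om := FreeGroup.lift D.pm

lemma hom_lt (l : α × Bool) (p : D.Om) : (D.hom (lt l) p).1 = D.st l p.1 := by
  obtain ⟨a, b⟩ := l
  cases b
  · have : (lt (a, false) : FreeGroup α) = (FreeGroup.of a)⁻¹ := by
      simp [lt, FreeGroup.of, FreeGroup.inv_mk, FreeGroup.invRev]
    rw [this, map_inv]
    simp only [hom, FreeGroup.lift_apply_of]
    rfl
  · have : (lt (a, true) : FreeGroup α) = FreeGroup.of a := rfl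
    rw [this]
    simp only [hom, FreeGroup.lift_apply_of]
    rfl

lemma hom_mk (L : List (α × Bool)) (hL : L.length ≤ r) (p : D.Om) :
    (D.hom (FreeGroup.mk L) p).1 = D.ch p.1.2 (FreeGroup.mk L • p.1.1) ∧
      FreeGroup.mk L • p.1.1 ∈ D.nb L.length := by
  induction L with
  | nil =>
    have h1 : (FreeGroup.mk [] : FreeGroup α) = 1 := rfl
    rw [h1, map_one, one_smul]
    exact ⟨(D.ch_self p.2).symm, D.mem_nb p.2 _⟩
  | cons l L ih =>
    simp only [List.length_cons] at hL
    obtain ⟨ih1, ih2⟩ := ih (by omega)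
    rw [mk_cons, map_mul, Equiv.Perm.mul_apply, hom_lt, ih1, mul_smul]
    exact ⟨D.ch_step (by omega) ih2 _ _, D.nb_step ih2 _⟩

lemma hom_rel (w : FreeGroup α) (hw : w.norm ≤ r) (hX : ∀ x : X, w • x = x) : D.hom w = 1 := by
  ext p : 1
  apply Subtype.ext
  have h := (D.hom_mk w.toWord hw p).1
  rw [FreeGroup.mk_toWord] at h
  rw [h, hX, D.ch_self p.2]
  rfl

/-- shift -/
def sh (p : D.Om) : D.Om := ⟨(p.1.1, p.1.2 + 1), p.2⟩

lemma ch_shift (t : ℤ) (z : X) : D.ch (t + 1) z = ((D.ch t z).1, (D.ch t z).2 + 1) := by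
  by_cases hB : z ∈ D.B
  · rw [D.ch_B _ hB, D.ch_B _ hB]
  · by_cases hA : z ∈ D.A
    · rw [D.ch_W _ hA hB, D.ch_W _ hA hB]
    · rw [D.ch_A _ hA, D.ch_A _ hA]; simp

lemma hom_lt_shift (l : α × Bool) (p : D.Om) :
    D.hom (lt l) (D.sh p) = D.sh (D.hom (lt l) p) := by
  apply Subtype.ext
  rw [hom_lt]
  have h2 : (D.sh (D.hom (lt l) p)).1 = ((D.hom (lt l) p).1.1, (D.hom (lt l) p).1.2 + 1) := rfl
  rw [h2, hom_lt]
  exact D.ch_shift _ _

lemma hom_shift (g : FreeGroup α) (p : D.Om) : D.hom g (D.sh p) = D.sh (D.hom g p) := by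
  obtain ⟨L, rfl⟩ : ∃ L, FreeGroup.mk L = g := ⟨g.toWord, FreeGroup.mk_toWord⟩
  induction L with
  | nil =>
    have h1 : (FreeGroup.mk [] : FreeGroup α) = 1 := rfl
    rw [h1, map_one]; rfl
  | cons l L ih =>
    rw [mk_cons, map_mul, Equiv.Perm.mul_apply, Equiv.Perm.mul_apply, ih, hom_lt_shift]

lemma sh_iter (m : ℕ) (p : D.Om) : ((D.sh)^[m] p).1 = (p.1.1, p.1.2 + m) := by
  induction m with
  | zero => simp
  | succ m ih =>
    rw [Function.iterate_succ', Function.comp_apply]
    have : (D.sh ((D.sh)^[m] p)).1 = (((D.sh)^[m] p).1.1, ((D.sh)^[m] p).1.2 + 1) := rfl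
    rw [this, ih]
    simp [add_assoc]

/-- no element shifts a point, if some positive power of it is trivial -/
lemma no_shift (g : FreeGroup α) (m : ℕ) (hm : 0 < m) (hg : D.hom (g ^ m) = 1) (p : D.Om) :
    D.hom g p ≠ D.sh p := by
  intro h
  have key : ∀ j : ℕ, D.hom (g ^ j) p = (D.sh)^[j] p := by
    intro j
    induction j with
    | zero => simp
    | succ j ih =>
      rw [pow_succ', map_mul, Equiv.Perm.mul_apply, ih]
      clear ih
      induction j with
      | zero => simpa using h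
      | succ j ih =>
        rw [Function.iterate_succ', Function.comp_apply, hom_shift, ih,
          Function.iterate_succ' (n := j + 1), Function.comp_apply]
  have h1 := key m
  rw [hg] at h1
  have h2 := congrArg (fun q : D.Om => q.1.2) h1
  simp only [Equiv.Perm.one_apply] at h2
  rw [sh_iter] at h2
  simp at h2
  omega

end Glue

end Vale.Agent.P192
end
end

section

section

set_option linter.all false

namespace Vale.Agent.P192

variable {α : Type} [DecidableEq α] {X : Type*} [MulAction (FreeGroup α) X]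

/-- connectivity by letter steps inside a set -/
def Conn (U : Set X) : X → X → Prop :=
  Relation.ReflTransGen (fun a b => a ∈ U ∧ b ∈ U ∧ ∃ l : α × Bool, lt l • a = b)

namespace Glue

variable {k r : ℕ} (D : Glue α X k r)

/-- closed window -/
def cw : Set X := (D.A \ D.B) ∪ Set.range D.γ

lemma cw_nb {z : X} (h : z ∈ D.cw) (p : ℕ) : z ∈ D.nb p := by
  rcases h with h | ⟨a, rfl⟩
  · exact Or.inl h
  · right; right; exact ⟨a, 1, by simp, by simp⟩

/-- the orbit relation on pairs -/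
def Orb (p q : X × ℤ) : Prop := ∃ (hp : p ∈ D.Om) (hq : q ∈ D.Om) (g : FreeGroup α),
  D.hom g ⟨p, hp⟩ = ⟨q, hq⟩

lemma Orb.refl {p : X × ℤ} (hp : p ∈ D.Om) : D.Orb p p := ⟨hp, hp, 1, by simp⟩

lemma Orb.symm {p q : X × ℤ} (h : D.Orb p q) : D.Orb q p := by
  obtain ⟨hp, hq, g, hg⟩ := h
  refine ⟨hq, hp, g⁻¹, ?_⟩
  rw [map_inv, ← hg]
  simp

lemma Orb.trans {p q s : X × ℤ} (h : D.Orb p q) (h' : D.Orb q s) : D.Orb p s := by
  obtain ⟨hp, hq, g, hg⟩ := h
  obtain ⟨hq', hs, g', hg'⟩ := h'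
  refine ⟨hp, hs, g' * g, ?_⟩
  rw [map_mul, Equiv.Perm.mul_apply, hg, hg']

lemma Orb_step {z : X} {l : α × Bool} (h : z ∈ D.nb 0) (h' : lt l • z ∈ D.nb 0) (t : ℤ) :
    D.Orb (D.ch t z) (D.ch t (lt l • z)) := by
  have hr := D.r2
  have h1 : z ∈ D.nb r := D.nb_mono (by omega) h
  have h2 : lt l • z ∈ D.nb r := D.nb_mono (by omega) h'
  refine ⟨D.ch_mem h1 t, D.ch_mem h2 t, lt l, ?_⟩
  apply Subtype.ext
  rw [hom_lt]
  exact D.ch_step (p := 0) (by omega) h t l

lemma Orb_conn {x y : X} (hx : x ∈ D.cw) (h : Conn (α := α) D.cw x y) (t : ℤ) :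
    D.Orb (D.ch t x) (D.ch t y) := by
  induction h with
  | refl => exact Orb.refl D (D.ch_mem (D.cw_nb hx _) t)
  | tail _ hst ih =>
    obtain ⟨h1, h2, l, rfl⟩ := hst
    exact Orb.trans D ih (D.Orb_step (D.cw_nb h1 0) (D.cw_nb h2 0) t)

lemma β_Om (a : Fin k) (t : ℤ) : (D.β a, t) ∈ D.Om :=
  ⟨D.hβA a, by simpa using D.far1 a 1 (by simp)⟩

lemma β_cw (a : Fin k) : D.β a ∈ D.cw := Or.inl ⟨D.hβA a, by simpa using D.far1 a 1 (by simp)⟩

lemma γ_cw (a : Fin k) : D.γ a ∈ D.cw := Or.inr ⟨a, rfl⟩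

lemma ch_β (a : Fin k) (t : ℤ) : D.ch t (D.β a) = (D.β a, t) :=
  D.ch_W t (D.hβA a) (by simpa using D.far1 a 1 (by simp))

lemma ch_γ (a : Fin k) (t : ℤ) : D.ch t (D.γ a) = (D.β a, t + 1) := by
  rw [D.ch_B t (D.hγB a)]
  have := D.th'_eq a 1 (by simp)
  simp only [one_smul] at this
  rw [this]

/-- the key lemma -/
theorem triple (C : Set X) (δ : Fin k → X) (hCB : C ⊆ D.B)
    (hδC : ∀ a, δ a ∈ C) (hγC : ∀ a, D.γ a ∉ C)
    (LL : ∀ c d, Conn (α := α) ((D.B \ C) ∪ Set.range δ) (D.γ c) (D.γ d) →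
      Conn (α := α) D.cw (D.β c) (D.β d))
    (LR : ∀ c b, Conn (α := α) ((D.B \ C) ∪ Set.range δ) (D.γ c) (δ b) →
      Conn (α := α) D.cw (D.β c) (D.γ b))
    (LR3 : ∀ a b, Conn (α := α) ((D.A \ C) ∪ Set.range δ) (D.β a) (δ b) →
      Conn (α := α) D.cw (D.β a) (D.γ b))
    (cross : ∃ a b, Conn (α := α) ((D.A \ C) ∪ Set.range δ) (D.β a) (δ b)) :
    ∃ (g : FreeGroup α) (p : D.Om), D.hom g p = D.sh p := by
  obtain ⟨a, b, hab⟩ := cross
  have h1 : D.Orb (D.β a, 0) (D.β b, 1) := by
    have := D.Orb_conn (D.β_cw a) (LR3 a b hab) 0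
    rw [D.ch_β, D.ch_γ] at this
    simpa using this
  have key : ∀ z, Conn (α := α) ((D.A \ C) ∪ Set.range δ) (D.β a) z →
      ((z ∈ D.cw ∧ D.Orb (D.β a, 0) (D.ch 0 z)) ∨
        (z ∈ (D.B \ C) ∪ Set.range δ ∧ ∃ c, Conn (α := α) ((D.B \ C) ∪ Set.range δ) (D.γ c) z ∧
          D.Orb (D.β a, 0) (D.β c, 1))) := by
    intro z hz
    induction hz with
    | refl =>
      left
      refine ⟨D.β_cw a, ?_⟩
      rw [D.ch_β]
      exact Orb.refl D (D.β_Om a 0)
    | @tail z z' _ hst ih =>
      obtain ⟨hz, hz', l, rfl⟩ := hst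
      have inter : z ∈ D.cw → z ∈ (D.B \ C) ∪ Set.range δ → ∃ d, D.γ d = z := by
        intro h h'
        have hB : z ∈ D.B := by
          rcases h' with h' | ⟨e, rfl⟩
          · exact h'.1
          · exact hCB (hδC e)
        rcases h with h | h
        · exact absurd hB h.2
        · exact h
      have edge : (z ∈ D.cw ∧ lt l • z ∈ D.cw) ∨
          (z ∈ (D.B \ C) ∪ Set.range δ ∧ lt l • z ∈ (D.B \ C) ∪ Set.range δ) := by
        have aux : ∀ y, y ∈ (D.A \ C) ∪ Set.range δ → y ∉ D.B → y ∈ D.cw := by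
          intro y hy hyB
          rcases hy with hy | ⟨e, rfl⟩
          · exact Or.inl ⟨hy.1, hyB⟩
          · exact absurd (hCB (hδC e)) hyB
        have aux2 : ∀ y, y ∈ (D.A \ C) ∪ Set.range δ → y ∈ D.B → y ∈ (D.B \ C) ∪ Set.range δ := by
          intro y hy hyB
          rcases hy with hy | hy
          · exact Or.inl ⟨hyB, hy.2⟩
          · exact Or.inr hy
        by_cases hzB : z ∈ D.B
        · by_cases hzB' : lt l • z ∈ D.B
          · right; exact ⟨aux2 _ hz hzB, aux2 _ hz' hzB'⟩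
          · left
            have hA' : lt l • z ∈ D.A := by
              rcases hz' with hy | ⟨e, he⟩
              · exact hy.1
              · rw [← he]; exact D.hBA (hCB (hδC e))
            obtain ⟨d, hd⟩ := D.hγ z hzB l hA' hzB'
            exact ⟨Or.inr ⟨d, hd⟩, aux _ hz' hzB'⟩
        · by_cases hzB' : lt l • z ∈ D.B
          · left
            have hzA : z ∈ D.A := by
              rcases hz with hy | ⟨e, he⟩
              · exact hy.1
              · rw [← he]; exact D.hBA (hCB (hδC e))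
            have t1 : lt (l.1, !l.2) • (lt l • z) ∈ D.A := by rw [lt_inv_smul]; exact hzA
            have t2 : lt (l.1, !l.2) • (lt l • z) ∉ D.B := by rw [lt_inv_smul]; exact hzB
            obtain ⟨d, hd⟩ := D.hγ _ hzB' _ t1 t2
            exact ⟨aux _ hz hzB, Or.inr ⟨d, hd⟩⟩
          · left; exact ⟨aux _ hz hzB, aux _ hz' hzB'⟩
      rcases edge with ⟨e1, e2⟩ | ⟨e1, e2⟩
      · left
        refine ⟨e2, ?_⟩
        have h3 : D.Orb (D.β a, 0) (D.ch 0 z) := by
          rcases ih with ⟨_, h⟩ | ⟨i1, c, hc, hc'⟩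
          · exact h
          · obtain ⟨d, rfl⟩ := inter e1 i1
            have h4 := D.Orb_conn (D.β_cw c) (LL c d hc) 1
            rw [D.ch_β, D.ch_β] at h4
            rw [D.ch_γ]
            exact Orb.trans D hc' (by simpa using h4)
        exact Orb.trans D h3 (D.Orb_step (D.cw_nb e1 0) (D.cw_nb e2 0) 0)
      · right
        refine ⟨e2, ?_⟩
        have h3 : ∃ c, Conn (α := α) ((D.B \ C) ∪ Set.range δ) (D.γ c) z ∧
            D.Orb (D.β a, 0) (D.β c, 1) := by
          rcases ih with ⟨i1, h⟩ | ⟨_, h⟩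
          · obtain ⟨d, rfl⟩ := inter i1 e1
            refine ⟨d, Relation.ReflTransGen.refl, ?_⟩
            rw [D.ch_γ] at h
            simpa using h
          · exact h
        obtain ⟨c, hc, hc'⟩ := h3
        exact ⟨c, hc.tail ⟨e1, e2, l, rfl⟩, hc'⟩
  have h2 : D.Orb (D.β b, 1) (D.β b, 2) := by
    rcases key _ hab with ⟨h, _⟩ | ⟨_, c, hc, hc'⟩
    · exfalso
      rcases h with h | ⟨d, hd⟩
      · exact h.2 (hCB (hδC b))
      · exact hγC d (hd ▸ hδC b)
    · have h4 := D.Orb_conn (D.β_cw c) (LR c b hc) 1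
      rw [D.ch_β, D.ch_γ] at h4
      have h5 : D.Orb (D.β c, 1) (D.β b, 2) := by simpa using h4
      exact Orb.trans D (Orb.symm D h1) (Orb.trans D hc' h5)
  obtain ⟨hp, hq, g, hg⟩ := h2
  refine ⟨g, ⟨(D.β b, 1), hp⟩, ?_⟩
  rw [hg]
  apply Subtype.ext
  show (D.β b, (2:ℤ)) = (D.β b, (1:ℤ) + 1)
  norm_num

end Glue

end Vale.Agent.P192
end
end

section

section

set_option linter.all false

namespace Vale.Agent.P192

/-- Ramsey theorem for monochromatic triples, finite version. -/
theorem ramsey_triple (κ : Type*) [Finite κ] : ∃ N : ℕ, ∀ c : ℕ → ℕ → κ, ∃ i j l, i < j ∧ j < l ∧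
    l ≤ N ∧ c i j = c i l ∧ c i l = c j l := by
  classical
  have claim : ∀ m : ℕ, ∃ N, ∀ (K : Finset κ) (_ : K.card ≤ m) (A : Finset ℕ) (_ : N ≤ A.card)
      (c : ℕ → ℕ → κ) (_ : ∀ i ∈ A, ∀ j ∈ A, i < j → c i j ∈ K),
      ∃ i ∈ A, ∃ j ∈ A, ∃ l ∈ A, i < j ∧ j < l ∧ c i j = c i l ∧ c i l = c j l := by
    intro m
    induction m with
    | zero =>
      refine ⟨2, ?_⟩
      intro K hK A hA c hc
      exfalso
      have hK0 : K = ∅ := by
        rw [← Finset.card_eq_zero]; omega
      obtain ⟨i, hi, j, hj, hij⟩ := Finset.one_lt_card.1 (by omega : 1 < A.card)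
      rcases lt_or_gt_of_ne hij with h | h
      · have := hc i hi j hj h
        simp [hK0] at this
      · have := hc j hj i hi h
        simp [hK0] at this
    | succ m ih =>
      obtain ⟨N, hN⟩ := ih
      refine ⟨(m + 1) * N + 2, ?_⟩
      intro K hK A hA c hc
      have hne : A.Nonempty := by
        rw [← Finset.card_pos]; omega
      set i0 := A.min' hne with hi0
      have hi0A : i0 ∈ A := Finset.min'_mem A hne
      have hlt : ∀ j ∈ A.erase i0, i0 < j := by
        intro j hj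
        have h1 := Finset.mem_erase.1 hj
        exact lt_of_le_of_ne (Finset.min'_le A j h1.2) (Ne.symm h1.1)
      have hmap : ∀ j ∈ A.erase i0, c i0 j ∈ K := fun j hj =>
        hc i0 hi0A j (Finset.mem_of_mem_erase hj) (hlt j hj)
      have hcard : K.card * N < (A.erase i0).card := by
        rw [Finset.card_erase_of_mem hi0A]
        have : K.card * N ≤ (m + 1) * N := Nat.mul_le_mul_right _ hK
        omega
      obtain ⟨y, hy, hyc⟩ := Finset.exists_lt_card_fiber_of_mul_lt_card_of_maps_to hmap hcard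
      set F := (A.erase i0).filter (fun x => c i0 x = y) with hF
      have hFA : ∀ j ∈ F, j ∈ A ∧ i0 < j ∧ c i0 j = y := by
        intro j hj
        have h1 := Finset.mem_filter.1 hj
        exact ⟨Finset.mem_of_mem_erase h1.1, hlt j h1.1, h1.2⟩
      by_cases hex : ∃ j ∈ F, ∃ l ∈ F, j < l ∧ c j l = y
      · obtain ⟨j, hj, l, hl, hjl, hc'⟩ := hex
        refine ⟨i0, hi0A, j, (hFA j hj).1, l, (hFA l hl).1, (hFA j hj).2.1, hjl, ?_, ?_⟩
        · rw [(hFA j hj).2.2, (hFA l hl).2.2]
        · rw [(hFA l hl).2.2, hc']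
      · push Not at hex
        have h1 : (K.erase y).card ≤ m := by
          rw [Finset.card_erase_of_mem hy]; omega
        obtain ⟨i, hi, j, hj, l, hl, h⟩ := hN (K.erase y) h1 F (by omega) c (by
          intro i hi j hj hij
          rw [Finset.mem_erase]
          exact ⟨hex i hi j hj hij, hc i (hFA i hi).1 j (hFA j hj).1 hij⟩)
        exact ⟨i, (hFA i hi).1, j, (hFA j hj).1, l, (hFA l hl).1, h⟩
  have := Fintype.ofFinite κ
  obtain ⟨N, hN⟩ := claim (Finset.univ : Finset κ).card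
  refine ⟨N, ?_⟩
  intro c
  obtain ⟨i, hi, j, hj, l, hl, h1, h2, h3⟩ := hN Finset.univ le_rfl (Finset.range N) (by simp) c
    (by simp)
  exact ⟨i, j, l, h1, h2, (Finset.mem_range.1 hl).le, h3⟩

variable {α : Type} [DecidableEq α]

/-- balls in the free group are finite -/
instance ballFinite [Finite α] (n : ℕ) : Finite {g : FreeGroup α // g.norm ≤ n} := by
  have h : Set.Finite {l : List (α × Bool) | l.length ≤ n} := List.finite_length_le (α × Bool) n
  have := h.to_subtype
  let f : {g : FreeGroup α // g.norm ≤ n} → {l : List (α × Bool) | l.length ≤ n} :=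
    fun g => ⟨g.1.toWord, g.2⟩
  exact Finite.of_injective f (fun a b hab => Subtype.ext (FreeGroup.toWord_injective
    (congrArg Subtype.val hab)))

lemma conn_univ {X : Type*} [MulAction (FreeGroup α) X] (x : X) (g : FreeGroup α) :
    Conn (α := α) Set.univ x (g • x) := by
  obtain ⟨L, rfl⟩ : ∃ L, FreeGroup.mk L = g := ⟨g.toWord, FreeGroup.mk_toWord⟩
  induction L with
  | nil =>
    have h1 : (FreeGroup.mk [] : FreeGroup α) = 1 := rfl
    rw [h1, one_smul]
    exact Relation.ReflTransGen.refl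
  | cons l L ih =>
    rw [mk_cons, mul_smul]
    exact ih.tail ⟨trivial, trivial, l, rfl⟩

universe u

/-- the main chain theorem -/
theorem main_chain [Finite α] (R : Set (FreeGroup α)) (r k : ℕ) (hr : 2 ≤ r)
    (hR : ∀ w ∈ R, w.norm ≤ r)
    (htors : ∀ g : FreeGroup α, ∃ m, 0 < m ∧ g ^ m ∈ Subgroup.normalClosure R) :
    ∃ N : ℕ, ∀ (X : Type u) [MulAction (FreeGroup α) X], (∀ w ∈ R, ∀ x : X, w • x = x) →
      ∀ (C : ℕ → Set X) (β : ℕ → Fin k → X),
      (∀ i ≤ N, ∀ a, β i a ∈ C i) →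
      (∀ i j, i < j → j ≤ N → ∀ x ∈ C i, x ∉ C j → ∀ l : α × Bool, lt l • x ∉ C i →
        ∃ a, β i a = x) →
      (∀ i j, i < j → j ≤ N → ∀ x ∈ C j, ∀ l : α × Bool, lt l • x ∈ C i → lt l • x ∉ C j →
        ∃ a, β j a = x) →
      (∀ i j, i < j → j ≤ N → C j ⊆ C i) →
      (∀ i j, i < j → j ≤ N → ∀ a (g : FreeGroup α), g.norm ≤ r → g • β i a ∉ C j) →
      (∀ i j, i < j → j ≤ N → ∀ a (g : FreeGroup α), g.norm ≤ r → g • β j a ∈ C i) →
      (∀ i j, i < j → j ≤ N → ∃ a b, Conn (α := α) ((C i \ C j) ∪ Set.range (β j))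
        (β i a) (β j b)) → False := by
  obtain ⟨N, hN⟩ := ramsey_triple
    (((Fin k → Fin k → {g : FreeGroup α // g.norm ≤ 2 * r} → Prop) ×
      (Fin k → {g : FreeGroup α // g.norm ≤ r} → Prop)) × (Fin k → Fin k → Prop) ×
      (Fin k → Fin k → Prop))
  refine ⟨N, ?_⟩
  intro X _ hRX C β hβC hb hc' hanti hfar hfar2 hcross
  obtain ⟨i, j, l, hij, hjl, hlN, h1, h2⟩ := hN (fun i j =>
    ((fun a b g => g.1 • β i a = β i b, fun a g => g.1 • β i a ∈ C i),
      fun a b => Conn (α := α) ((C i \ C j) ∪ Set.range (β j)) (β i a) (β i b),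
      fun a b => Conn (α := α) ((C i \ C j) ∪ Set.range (β j)) (β i a) (β j b)))
  have h12 := h1.trans h2
  simp only [Prod.mk.injEq] at h1 h2 h12
  obtain ⟨⟨t1, t2⟩, -, -⟩ := h12
  have hc : ∀ a b : Fin k, Conn (α := α) ((C i \ C j) ∪ Set.range (β j)) (β i a) (β i b) ↔
      Conn (α := α) ((C j \ C l) ∪ Set.range (β l)) (β j a) (β j b) := by
    intro a b
    have h3 := congrFun (congrFun (h1.2.1.trans h2.2.1) a) b
    exact iff_of_eq h3
  have hc2 : ∀ a b : Fin k, Conn (α := α) ((C i \ C j) ∪ Set.range (β j)) (β i a) (β j b) ↔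
      Conn (α := α) ((C j \ C l) ∪ Set.range (β l)) (β j a) (β l b) := by
    intro a b
    have h3 := congrFun (congrFun (h1.2.2.trans h2.2.2) a) b
    exact iff_of_eq h3
  have hc3 : ∀ a b : Fin k, Conn (α := α) ((C i \ C j) ∪ Set.range (β j)) (β i a) (β j b) ↔
      Conn (α := α) ((C i \ C l) ∪ Set.range (β l)) (β i a) (β l b) := by
    intro a b
    have h3 := congrFun (congrFun (h1.2.2) a) b
    exact iff_of_eq h3
  let D : Glue α X k r :=
    { A := C i
      B := C j
      β := β i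
      γ := β j
      r2 := hr
      hBA := hanti i j hij (by omega)
      hβ := hb i j hij (by omega)
      hγ := hc' i j hij (by omega)
      hβA := hβC i (by omega)
      hγB := hβC j (by omega)
      far1 := hfar i j hij (by omega)
      far2 := hfar2 i j hij (by omega)
      type1 := by
        intro a b g hg
        exact iff_of_eq (congrFun (congrFun (congrFun t1 a) b) ⟨g, hg⟩)
      type2 := by
        intro a g hg
        exact iff_of_eq (congrFun (congrFun t2 a) ⟨g, hg⟩) }
  obtain ⟨g, p, hgp⟩ := D.triple (C l) (β l) (hanti j l hjl hlN) (hβC l hlN)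
    (fun a => by simpa using hfar j l hjl hlN a 1 (by simp))
    (fun c d h => (hc c d).2 h) (fun c b h => (hc2 c b).2 h) (fun a b h => (hc3 a b).2 h)
    (hcross i l (by omega) hlN)
  obtain ⟨m, hm, hgm⟩ := htors g
  have hker : Subgroup.normalClosure R ≤ D.hom.ker := by
    apply Subgroup.normalClosure_le_normal
    intro w hw
    exact D.hom_rel w (hR w hw) (hRX w hw)
  exact D.no_shift g m hm (hker hgm) p hgp

/-- interval lemma -/
theorem interval_lemma (n : ℕ) (m : ℕ) : ∃ L : ℕ, ∀ (E : Type u) (K : ℕ → Set E) (s : ℕ),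
    (∀ i, s ≤ i → i ≤ s + L → (K i).encard ≤ m) →
    (∀ e i j l, i ≤ j → j ≤ l → e ∈ K i → e ∈ K l → e ∈ K j) →
    ∃ f : ℕ → ℕ, StrictMono f ∧ (∀ a, a ≤ n → s ≤ f a ∧ f a ≤ s + L) ∧
      ∀ e a b, a < b → b ≤ n → e ∈ K (f a) → e ∈ K (f b) → ∀ c ≤ n, e ∈ K (f c) := by
  induction m with
  | zero =>
    refine ⟨n, ?_⟩
    intro E K s hK hconv
    refine ⟨fun a => s + a, fun a b h => by simpa using h, fun a ha => ⟨by
      show s ≤ s + a; omega, by
      show s + a ≤ s + n; omega⟩, ?_⟩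
    intro e a b hab hb he
    exfalso
    have := hK (s + a) (by omega) (by omega)
    simp only [Nat.cast_zero, nonpos_iff_eq_zero, Set.encard_eq_zero] at this
    rw [this] at he
    exact he
  | succ m ih =>
    obtain ⟨L0, hL0⟩ := ih
    refine ⟨(n + 1) * (L0 + 1), ?_⟩
    intro E K s hK hconv
    by_cases hA : ∃ e p, s ≤ p ∧ p + L0 ≤ s + (n + 1) * (L0 + 1) ∧ e ∈ K p ∧ e ∈ K (p + L0)
    · obtain ⟨e, p, hsp, hp, he1, he2⟩ := hA
      have hin : ∀ i, p ≤ i → i ≤ p + L0 → e ∈ K i := fun i h1 h2 => hconv e p i (p + L0) h1 h2 he1 he2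
      obtain ⟨f, hf1, hf2, hf3⟩ := hL0 E (fun i => K i \ {e}) p (by
        intro i h1 h2
        have h3 := hK i (by omega) (by omega)
        have h4 := Set.encard_diff_singleton_add_one (hin i h1 h2)
        rw [← h4] at h3
        push_cast at h3
        exact (ENat.add_le_add_iff_right (by simp)).1 h3) (by
        intro e' i j l hij hjl h1 h2
        exact ⟨hconv e' i j l hij hjl h1.1 h2.1, h1.2⟩)
      refine ⟨f, hf1, fun a ha => ⟨by have := (hf2 a ha).1; omega, by
        have := (hf2 a ha).2; omega⟩, ?_⟩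
      intro e' a b hab hb h1 h2 c hc
      by_cases hee : e' = e
      · rw [hee]
        exact hin _ (hf2 c hc).1 (hf2 c hc).2
      · exact (hf3 e' a b hab hb ⟨h1, hee⟩ ⟨h2, hee⟩ c hc).1
    · push Not at hA
      refine ⟨fun a => s + a * (L0 + 1), ?_, ?_, ?_⟩
      · intro a b hab
        have : a * (L0 + 1) < b * (L0 + 1) := Nat.mul_lt_mul_of_pos_right hab (by omega)
        show s + a * (L0 + 1) < s + b * (L0 + 1)
        omega
      · intro a ha
        have : a * (L0 + 1) ≤ (n + 1) * (L0 + 1) := Nat.mul_le_mul_right _ (by omega)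
        exact ⟨by show s ≤ s + a * (L0 + 1); omega, by show s + a * (L0 + 1) ≤ _; omega⟩
      · intro e a b hab hb h1 h2
        exfalso
        have h3 : (a + 1) * (L0 + 1) ≤ b * (L0 + 1) := Nat.mul_le_mul_right _ hab
        have h4 : b * (L0 + 1) ≤ (n + 1) * (L0 + 1) := Nat.mul_le_mul_right _ (by omega)
        have h5 : (a + 1) * (L0 + 1) = a * (L0 + 1) + L0 + 1 := by ring
        apply hA e (s + a * (L0 + 1)) (by omega) (by omega) h1
        exact hconv e (s + a * (L0 + 1)) _ (s + b * (L0 + 1)) (by omega) (by omega) h1 h2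

end Vale.Agent.P192
end
end

section

section

set_option linter.all false

namespace Vale.Agent.P192

universe u

theorem exists_enum {X : Type*} {k : ℕ} (s : Set X) (hne : s.Nonempty) (h : s.encard ≤ k) :
    ∃ β : Fin k → X, Set.range β = s := by
  obtain ⟨hfin, hcard⟩ := Set.encard_le_coe_iff_finite_ncard_le.1 h
  have : Fintype s := hfin.fintype
  have hne' : Nonempty s := hne.to_subtype
  have hc : Fintype.card s ≤ Fintype.card (Fin k) := by
    rw [Fintype.card_fin]
    rwa [Set.ncard_eq_toFinset_card', Set.toFinset_card] at hcard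
  obtain ⟨f⟩ := Function.Embedding.nonempty_of_card_le hc
  have hs := Function.invFun_surjective f.injective
  refine ⟨fun i => (Function.invFun f i : s), ?_⟩
  ext x
  constructor
  · rintro ⟨i, rfl⟩
    exact Subtype.coe_prop _
  · intro hx
    obtain ⟨i, hi⟩ := hs ⟨x, hx⟩
    exact ⟨i, by simp only [hi]⟩

variable {α : Type} [DecidableEq α] {X : Type u} [MulAction (FreeGroup α) X]

/-- inner boundary -/
def IB (C : Set X) : Set X := {x | x ∈ C ∧ ∃ l : α × Bool, lt l • x ∉ C}

/-- generic crossing lemma -/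
theorem cross_gen (V A C MA MC : Set X) (hCA : C ⊆ A)
    (hP : ∀ z ∈ V, ∀ l : α × Bool, z ∉ A → lt l • z ∈ A → lt l • z ∈ MA)
    (hQ : ∀ z ∈ V, ∀ l : α × Bool, z ∈ A → z ∉ C → lt l • z ∈ C → lt l • z ∈ MC)
    (hMA : ∀ z ∈ MA, z ∈ A ∧ z ∉ C) (x y : X) (hx : x ∉ A ∨ x ∈ MA) (hy : y ∈ C)
    (h : Relation.ReflTransGen (fun a b => a ∈ V ∧ ∃ l : α × Bool, lt l • a = b) x y) :
    ∃ a ∈ MA, ∃ b ∈ MC, Conn (α := α) ((A \ C) ∪ MC) a b := by
  by_contra hno
  push Not at hno
  have key : ∀ z, Relation.ReflTransGen (fun a b => a ∈ V ∧ ∃ l : α × Bool, lt l • a = b) x z →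
      (z ∉ A ∨ (z ∈ A ∧ z ∉ C ∧ ∃ a ∈ MA, Conn (α := α) ((A \ C) ∪ MC) a z)) := by
    intro z hz
    induction hz with
    | refl =>
      rcases hx with hx | hx
      · left; exact hx
      · right; exact ⟨(hMA _ hx).1, (hMA _ hx).2, x, hx, Relation.ReflTransGen.refl⟩
    | @tail z z' _ hst ih =>
      obtain ⟨hzV, l, rfl⟩ := hst
      by_cases hA : lt l • z ∈ A
      · right
        rcases ih with h1 | ⟨h1, h2, a, ha, h3⟩
        · have h4 := hP z hzV l h1 hA
          exact ⟨hA, (hMA _ h4).2, _, h4, Relation.ReflTransGen.refl⟩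
        · by_cases hC : lt l • z ∈ C
          · exfalso
            have h4 := hQ z hzV l h1 h2 hC
            exact hno a ha _ h4 (h3.tail ⟨Or.inl ⟨h1, h2⟩, Or.inr h4, l, rfl⟩)
          · exact ⟨hA, hC, a, ha, h3.tail ⟨Or.inl ⟨h1, h2⟩, Or.inl ⟨hA, hC⟩, l, rfl⟩⟩
      · left; exact hA
  rcases key _ h with h1 | ⟨_, h1, _⟩
  · exact h1 (hCA hy)
  · exact h1 hy

lemma exists_suffix (C : Set X) (x : X) (hx : x ∈ C) (L : List (α × Bool))
    (hL : FreeGroup.mk L • x ∉ C) :
    ∃ w : FreeGroup α, w.norm ≤ L.length ∧ w • x ∈ IB (α := α) C := by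
  induction L with
  | nil =>
    exfalso
    have h1 : (FreeGroup.mk [] : FreeGroup α) = 1 := rfl
    rw [h1, one_smul] at hL
    exact hL hx
  | cons l L ih =>
    by_cases h : FreeGroup.mk L • x ∈ C
    · refine ⟨FreeGroup.mk L, ?_, h, l, ?_⟩
      · have := FreeGroup.norm_mk_le (L₁ := L)
        simp only [List.length_cons]
        omega
      · rw [mk_cons, mul_smul] at hL
        exact hL
    · obtain ⟨w, hw, hw'⟩ := ih h
      exact ⟨w, by simp only [List.length_cons]; omega, hw'⟩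

/-- extended boundary -/
def KK (ρ : ℕ) (C : Set X) : Set (X × FreeGroup α) :=
  {e | e.1 ∈ C ∧ e.2 • e.1 ∉ C ∧ e.2.norm ≤ ρ}

theorem KK_card [Finite α] (ρ k : ℕ) (C : Set X) (h : (IB (α := α) C).encard ≤ k) :
    (KK (α := α) ρ C).encard ≤ ((k * Nat.card ({g : FreeGroup α // g.norm ≤ ρ} ×
      {g : FreeGroup α // g.norm ≤ ρ}) : ℕ) : ℕ∞) := by
  have hsub : KK (α := α) ρ C ⊆ (fun p : X × ({g : FreeGroup α // g.norm ≤ ρ} ×
      {g : FreeGroup α // g.norm ≤ ρ}) => (p.2.1.1⁻¹ • p.1, p.2.2.1)) ''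
      ((IB (α := α) C) ×ˢ Set.univ) := by
    rintro ⟨x, g⟩ ⟨h1, h2, h3⟩
    simp only at h1 h2 h3
    rw [← FreeGroup.mk_toWord (x := g)] at h2
    obtain ⟨w, hw, hw'⟩ := exists_suffix C x h1 _ h2
    exact ⟨(w • x, (⟨w, hw.trans h3⟩, ⟨g, h3⟩)), ⟨hw', trivial⟩, by simp⟩
  refine (Set.encard_le_encard hsub).trans ((Set.encard_image_le _ _).trans ?_)
  rw [Set.encard_prod, Set.encard_univ, ENat.card_eq_coe_natCard, Nat.cast_mul]
  exact mul_le_mul_left h _

lemma conn_symm {U : Set X} {x y : X} (h : Conn (α := α) U x y) : Conn (α := α) U y x := by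
  induction h with
  | refl => exact Relation.ReflTransGen.refl
  | tail _ hst ih =>
    obtain ⟨h1, h2, l, rfl⟩ := hst
    refine Relation.ReflTransGen.head ⟨h2, h1, (l.1, !l.2), ?_⟩ ih
    rw [Glue.lt_inv_smul]

/-- uniform chain condition for actions of the free group killing the relators -/
theorem chainF [Finite α] (R : Set (FreeGroup α)) (r k : ℕ) (hr : 2 ≤ r)
    (hR : ∀ w ∈ R, w.norm ≤ r)
    (htors : ∀ g : FreeGroup α, ∃ m, 0 < m ∧ g ^ m ∈ Subgroup.normalClosure R) :
    ∃ L : ℕ, ∀ (X : Type u) [MulAction (FreeGroup α) X], (∀ w ∈ R, ∀ x : X, w • x = x) →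
      (∀ x y : X, ∃ g : FreeGroup α, g • x = y) → ∀ C : ℕ → Set X,
      (∀ i j, i < j → j ≤ L → C j ⊂ C i) →
      (∀ i ≤ L, (IB (α := α) (C i)).encard ≤ k) → False := by
  classical
  obtain ⟨N, hN⟩ := main_chain.{u} R r k hr hR htors
  obtain ⟨L, hL⟩ := interval_lemma.{u} (2 * N + 10) (k * Nat.card
    ({g : FreeGroup α // g.norm ≤ r + 2} × {g : FreeGroup α // g.norm ≤ r + 2}))
  refine ⟨L, ?_⟩
  intro X _ hRX htrans C hC hk
  have hCsub : ∀ i j, i ≤ j → j ≤ L → C j ⊆ C i := by
    intro i j hij hj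
    rcases hij.lt_or_eq with h | h
    · exact (hC i j h hj).subset
    · rw [h]
  obtain ⟨f, hf1, hf2, hf3⟩ := hL (X × FreeGroup α)
    (fun i => if i ≤ L then KK (α := α) (r + 2) (C i) else ∅) 0 (by
      intro i _ hi
      have : i ≤ L := by omega
      simp only [this, if_true]
      exact KK_card _ _ _ (hk i this)) (by
      intro e i j l hij hjl h1 h2
      by_cases hl : l ≤ L
      · have hj : j ≤ L := hjl.trans hl
        have hi : i ≤ L := hij.trans hj
        simp only [hl, hj, hi, if_true] at h1 h2 ⊢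
        exact ⟨hCsub j l hjl hl h2.1, fun h => h1.2.1 (hCsub i j hij hj h), h1.2.2⟩
      · simp only [hl, if_false] at h2
        exact absurd h2 (by simp))
  set n := 2 * N + 10 with hn
  have hfL : ∀ a, a ≤ n → f a ≤ L := fun a ha => by have := (hf2 a ha).2; omega
  set D : ℕ → Set X := fun c => C (f c) with hDdef
  have hDs : ∀ a b, a < b → b ≤ n → D b ⊂ D a := fun a b hab hb => hC _ _ (hf1 hab) (hfL b hb)
  have hD : ∀ a b, a ≤ b → b ≤ n → D b ⊆ D a := by
    intro a b hab hb
    rcases hab.lt_or_eq with h | h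
    · exact (hDs a b h hb).subset
    · rw [h]
  have hst : ∀ (x : X) (g : FreeGroup α), g.norm ≤ r + 2 → ∀ a b, a < b → b ≤ n → x ∈ D a →
      g • x ∉ D a → x ∈ D b → g • x ∉ D b → ∀ c ≤ n, x ∈ D c ∧ g • x ∉ D c := by
    intro x g hg a b hab hb h1 h2 h3 h4 c hc
    have h5 := hf3 (x, g) a b hab hb
    simp only [hfL a (by omega), hfL b hb, if_true] at h5
    have h6 := h5 ⟨h1, h2, hg⟩ ⟨h3, h4, hg⟩ c hc
    simp only [hfL c hc, if_true] at h6
    exact ⟨h6.1, h6.2.1⟩
  set M : ℕ → Set X := fun c => {x | x ∈ D c ∧ ∃ l : α × Bool, lt l • x ∉ D c ∧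
    ¬ (∀ c' ≤ n, x ∈ D c' ∧ lt l • x ∉ D c')} with hM
  have hln : ∀ l : α × Bool, (lt l).norm ≤ r + 2 := fun l => (lt_norm l).trans (by omega)
  have m1 : ∀ c x, x ∈ M c → ∀ c', c < c' → c' ≤ n → x ∉ D c' := by
    rintro c x ⟨h1, l, h2, h3⟩ c' hc hc' h4
    exact h3 (hst x (lt l) (hln l) c c' hc hc' h1 h2 h4 (fun h => h2 (hD c c' hc.le hc' h)))
  have far1 : ∀ c c', c < c' → c' ≤ n → c + 2 ≤ n → ∀ x ∈ M c, ∀ g : FreeGroup α, g.norm ≤ r →
      g • x ∉ D c' := by
    intro c c' hcc hc' hcn x hx g hg hz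
    obtain ⟨h1, l, h2, h3⟩ := id hx
    have hg2 : (lt l * g⁻¹).norm ≤ r + 2 := by
      have := FreeGroup.norm_mul_le (lt l) g⁻¹
      rw [FreeGroup.norm_inv_eq] at this
      have := lt_norm l
      omega
    have e1 : (lt l * g⁻¹) • (g • x) = lt l • x := by rw [mul_smul, inv_smul_smul]
    have s1 := hst (g • x) (lt l * g⁻¹) hg2 c c' hcc hc' (hD c c' hcc.le hc' hz)
      (by rw [e1]; exact h2) hz (by rw [e1]; exact fun h => h2 (hD c c' hcc.le hc' h))
    have e2 : g⁻¹ • (g • x) = x := inv_smul_smul _ _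
    have s2 := hst (g • x) g⁻¹ (by rw [FreeGroup.norm_inv_eq]; omega) (c + 1) (c + 2) (by omega)
      hcn (s1 _ (by omega)).1 (by rw [e2]; exact m1 c x hx _ (by omega) (by omega))
      (s1 _ (by omega)).1 (by rw [e2]; exact m1 c x hx _ (by omega) (by omega)) c (by omega)
    rw [e2] at s2
    exact s2.2 h1
  have far2 : ∀ c c', c < c' → c' ≤ n → 2 ≤ c' → ∀ x ∈ M c', ∀ g : FreeGroup α, g.norm ≤ r →
      g • x ∈ D c := by
    intro c c' hcc hc' hcn x hx g hg
    obtain ⟨h1, l, h2, h3⟩ := id hx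
    by_contra hz
    have m2 : ∀ c'', c'' < c' → lt l • x ∈ D c'' := by
      intro c'' hc''
      by_contra h4
      exact h3 (hst x (lt l) (hln l) c'' c' hc'' hc' (hD _ _ hc''.le hc' h1) h4 h1 h2)
    have s1 := hst x g (by omega) c c' hcc hc' (hD _ _ hcc.le hc' h1) hz h1
      (fun h => hz (hD c c' hcc.le hc' h))
    have hg2 : (g * (lt l)⁻¹).norm ≤ r + 2 := by
      have := FreeGroup.norm_mul_le g (lt l)⁻¹
      rw [FreeGroup.norm_inv_eq] at this
      have := lt_norm l
      omega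
    have e1 : (g * (lt l)⁻¹) • (lt l • x) = g • x := by rw [mul_smul, inv_smul_smul]
    have s2 := hst (lt l • x) (g * (lt l)⁻¹) hg2 0 1 (by omega) (by omega) (m2 0 (by omega))
      (by rw [e1]; exact (s1 0 (by omega)).2) (m2 1 (by omega))
      (by rw [e1]; exact (s1 1 (by omega)).2) c' hc'
    exact h2 s2.1
  have hMk : ∀ c, c ≤ n → (M c).encard ≤ k := by
    intro c hc
    refine le_trans (Set.encard_le_encard ?_) (hk (f c) (hfL c hc))
    rintro x ⟨h1, l, h2, -⟩
    exact ⟨h1, l, h2⟩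
  have hb : ∀ i j, i < j → j ≤ n → ∀ x ∈ D i, x ∉ D j → ∀ l : α × Bool, lt l • x ∉ D i →
      x ∈ M i := by
    intro i j hij hj x h1 h2 l h3
    exact ⟨h1, l, h3, fun h => h2 (h j hj).1⟩
  have hc : ∀ i j, i < j → j ≤ n → ∀ x ∈ D j, ∀ l : α × Bool, lt l • x ∈ D i → lt l • x ∉ D j →
      x ∈ M j := by
    intro i j hij hj x h1 l h2 h3
    exact ⟨h1, l, h3, fun h => (h i (by omega)).2 h2⟩
  -- generic final step
  have final : ∀ s, 2 ≤ s → s + N + 1 ≤ n - 2 →
      (∀ i j, i < j → j ≤ N + 1 → ∃ a ∈ M (s + i), ∃ b ∈ M (s + j),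
        Conn (α := α) ((D (s + i) \ D (s + j)) ∪ M (s + j)) a b) → False := by
    intro s hs2 hsn hcross
    have hne : ∀ i ≤ N, (M (s + i)).Nonempty := by
      intro i hi
      obtain ⟨a, ha, -⟩ := hcross i (i + 1) (by omega) (by omega)
      exact ⟨a, ha⟩
    have hex : ∀ i, ∃ β : Fin k → X, i ≤ N → Set.range β = M (s + i) := by
      intro i
      by_cases hi : i ≤ N
      · obtain ⟨β, hβ⟩ := exists_enum (k := k) _ (hne i hi) (hMk (s + i) (by omega))
        exact ⟨β, fun _ => hβ⟩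
      · obtain ⟨a, -⟩ := hne 0 (by omega)
        exact ⟨fun _ => a, fun h => absurd h hi⟩
    choose β hβ using hex
    have hβM : ∀ i ≤ N, ∀ a, β i a ∈ M (s + i) := by
      intro i hi a
      rw [← hβ i hi]; exact ⟨a, rfl⟩
    have hβM' : ∀ i ≤ N, ∀ x ∈ M (s + i), ∃ a, β i a = x := by
      intro i hi x hx
      rw [← hβ i hi] at hx; exact hx
    apply hN X hRX (fun i => D (s + i)) β
    · intro i hi a
      exact (hβM i hi a).1
    · intro i j hij hj x h1 h2 l h3
      exact hβM' i (by omega) x (hb (s + i) (s + j) (by omega) (by omega) x h1 h2 l h3)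
    · intro i j hij hj x h1 l h2 h3
      exact hβM' j hj x (hc (s + i) (s + j) (by omega) (by omega) x h1 l h2 h3)
    · intro i j hij hj
      exact hD _ _ (by omega) (by omega)
    · intro i j hij hj a g hg
      exact far1 (s + i) (s + j) (by omega) (by omega) (by omega) _ (hβM i (by omega) a) g hg
    · intro i j hij hj a g hg
      exact far2 (s + i) (s + j) (by omega) (by omega) (by omega) _ (hβM j hj a) g hg
    · intro i j hij hj
      obtain ⟨a, ha, b, hb', hab⟩ := hcross i j hij (by omega)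
      obtain ⟨a', rfl⟩ := hβM' i (by omega) a ha
      obtain ⟨b', rfl⟩ := hβM' j hj b hb'
      refine ⟨a', b', ?_⟩
      rw [hβ j hj]
      exact hab
  -- crossings
  have hPgen : ∀ i, 2 ≤ i → i ≤ n → ∀ z ∈ D 2 \ D (n - 2), ∀ l : α × Bool, z ∉ D i →
      lt l • z ∈ D i → lt l • z ∈ M i := by
    intro i hi hin z hz l h1 h2
    refine ⟨h2, (l.1, !l.2), ?_, ?_⟩
    · rw [Glue.lt_inv_smul]; exact h1
    · intro h
      have := (h 2 (by omega)).2
      rw [Glue.lt_inv_smul] at this
      exact this hz.1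
  have hQgen : ∀ i j, i < j → j ≤ n → ∀ z ∈ D 2 \ D (n - 2), ∀ l : α × Bool, z ∈ D i → z ∉ D j →
      lt l • z ∈ D j → lt l • z ∈ M j := by
    intro i j hij hj z hz l h1 h2 h3
    refine ⟨h3, (l.1, !l.2), ?_, ?_⟩
    · rw [Glue.lt_inv_smul]; exact h2
    · intro h
      have := (h i (by omega)).2
      rw [Glue.lt_inv_smul] at this
      exact this h1
  set p := N + 4 with hp
  obtain ⟨xp, hxp1, hxp2⟩ := Set.exists_of_ssubset (hDs p (p + 1) (by omega) (by omega))
  obtain ⟨y0, hy01, hy02⟩ := Set.exists_of_ssubset (hDs 0 2 (by omega) (by omega))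
  have hxW : xp ∈ D 2 \ D (n - 2) :=
    ⟨hD 2 p (by omega) (by omega) hxp1, fun h => hxp2 (hD (p + 1) (n - 2) (by omega) (by omega) h)⟩
  have hexit : ∃ u, u ∈ D 2 \ D (n - 2) ∧ Conn (α := α) (D 2 \ D (n - 2)) xp u ∧
      ∃ l : α × Bool, (lt l • u ∉ D 2 ∨ lt l • u ∈ D (n - 2)) := by
    by_contra hno
    push Not at hno
    have key : ∀ z, Conn (α := α) Set.univ xp z → z ∈ D 2 \ D (n - 2) ∧
        Conn (α := α) (D 2 \ D (n - 2)) xp z := by
      intro z hz
      induction hz with
      | refl => exact ⟨hxW, Relation.ReflTransGen.refl⟩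
      | @tail z z' _ hst' ih =>
        obtain ⟨-, -, l, rfl⟩ := hst'
        have h1 := hno z ih.1 ih.2 l
        exact ⟨⟨h1.1, h1.2⟩, ih.2.tail ⟨ih.1, ⟨h1.1, h1.2⟩, l, rfl⟩⟩
    obtain ⟨g, hg⟩ := htrans xp y0
    have := conn_univ xp g
    rw [hg] at this
    exact hy02 (key y0 this).1.1
  obtain ⟨u, huW, hconn, l, hl⟩ := hexit
  have hconv : ∀ x y, Conn (α := α) (D 2 \ D (n - 2)) x y →
      Relation.ReflTransGen (fun a b => a ∈ D 2 \ D (n - 2) ∧ ∃ l : α × Bool, lt l • a = b) x y := by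
    intro x y h
    induction h with
    | refl => exact Relation.ReflTransGen.refl
    | tail _ hst' ih => exact ih.tail ⟨hst'.1, hst'.2.2⟩
  rcases hl with hl | hl
  · -- exits to the left
    have huM : u ∈ M 2 := ⟨huW.1, l, hl, fun h => huW.2 (h (n - 2) (by omega)).1⟩
    apply final 2 le_rfl (by omega)
    intro i j hij hj
    refine cross_gen (D 2 \ D (n - 2)) (D (2 + i)) (D (2 + j)) (M (2 + i)) (M (2 + j))
      (hD _ _ (by omega) (by omega)) (hPgen _ (by omega) (by omega))
      (hQgen _ _ (by omega) (by omega)) ?_ u xp ?_ ?_ (hconv _ _ (conn_symm hconn))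
    · intro z hz
      exact ⟨hz.1, m1 _ z hz _ (by omega) (by omega)⟩
    · by_cases hi : i = 0
      · right; subst hi; exact huM
      · left; exact m1 2 u huM _ (by omega) (by omega)
    · exact hD (2 + j) p (by omega) (by omega) hxp1
  · -- exits to the right
    apply final (p + 1) (by omega) (by omega)
    intro i j hij hj
    refine cross_gen (D 2 \ D (n - 2)) (D (p + 1 + i)) (D (p + 1 + j)) (M (p + 1 + i))
      (M (p + 1 + j)) (hD _ _ (by omega) (by omega)) (hPgen _ (by omega) (by omega))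
      (hQgen _ _ (by omega) (by omega)) ?_ xp (lt l • u) ?_ ?_
      ((hconv _ _ hconn).tail ⟨huW, l, rfl⟩)
    · intro z hz
      exact ⟨hz.1, m1 _ z hz _ (by omega) (by omega)⟩
    · left
      exact fun h => hxp2 (hD (p + 1) (p + 1 + i) (by omega) (by omega) h)
    · exact hD (p + 1 + j) (n - 2) (by omega) (by omega) hl

end Vale.Agent.P192
end
end

section

section

set_option linter.all false

namespace Vale.Agent.P192

universe u v

/-- The inner boundary of a subset `C` of a `G`-set with respect to `S`: the points of `C` that some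
element of `S` or the inverse of some element of `S` moves out of `C`. -/
def bdry {G : Type v} {X : Type u} [Group G] [MulAction G X] (S : Set G) (C : Set X) : Set X :=
  {x | x ∈ C ∧ ∃ s ∈ S, s • x ∉ C ∨ s⁻¹ • x ∉ C}

theorem exists_list {G : Type v} [Group G] (S : Set G) (hS : Subgroup.closure S = ⊤) (g : G) :
    ∃ L : List G, (∀ y ∈ L, y ∈ S ∨ y⁻¹ ∈ S) ∧ L.prod = g := by
  have h1 : g ∈ (Subgroup.closure S).toSubmonoid := by rw [hS]; exact Subgroup.mem_top g
  rw [Subgroup.closure_toSubmonoid] at h1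
  obtain ⟨L, hL, rfl⟩ := Submonoid.exists_list_of_mem_closure h1
  exact ⟨L, fun y hy => hL y hy, rfl⟩

theorem exists_suffixG {G : Type v} {X : Type u} [Group G] [MulAction G X] (S : Set G) (C : Set X)
    (x : X) (hx : x ∈ C) (L : List G) (hL : ∀ y ∈ L, y ∈ S ∨ y⁻¹ ∈ S) (h : L.prod • x ∉ C) :
    ∃ w ∈ L.tails, w.prod • x ∈ bdry S C := by
  induction L with
  | nil => simp only [List.prod_nil, one_smul] at h; exact absurd hx h
  | cons y L ih =>
    by_cases h2 : L.prod • x ∈ C
    · refine ⟨L, by simp, h2, ?_⟩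
      rw [List.prod_cons, mul_smul] at h
      rcases hL y (by simp) with h3 | h3
      · exact ⟨y, h3, Or.inl h⟩
      · exact ⟨y⁻¹, h3, Or.inr (by rw [inv_inv]; exact h)⟩
    · obtain ⟨w, hw, hw'⟩ := ih (fun y hy => hL y (by simp [hy])) h2
      exact ⟨w, by simp at hw ⊢; exact Or.inr hw, hw'⟩

/-- chain condition, for sequences -/
theorem chain_seq (G : Type v) [Group G] [Group.IsFinitelyPresented G] (hG : IsMulTorsion G)
    (S : Set G) (hS : Subgroup.closure S = ⊤) (k : ℕ) :
    ∃ L : ℕ, ∀ (X : Type u) [MulAction G X] [MulAction.IsPretransitive G X] (C : ℕ → Set X),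
      (∀ i j, i < j → j ≤ L → C j ⊂ C i) → (∀ i ≤ L, (bdry S (C i)).encard ≤ k) → False := by
  obtain ⟨n, φ, hφ, R, hRfin, hRker⟩ := ‹Group.IsFinitelyPresented G›.out
  obtain ⟨r0, hr0⟩ : ∃ r0, ∀ w ∈ R, w.norm ≤ r0 := by
    obtain ⟨b, hb⟩ := (hRfin.image FreeGroup.norm).bddAbove
    exact ⟨b, fun w hw => hb ⟨w, hw, rfl⟩⟩
  have htors : ∀ g : FreeGroup (Fin n), ∃ m, 0 < m ∧ g ^ m ∈ Subgroup.normalClosure R := by
    intro g
    obtain ⟨m, hm, hm'⟩ := isOfFinOrder_iff_pow_eq_one.1 (hG (φ g))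
    refine ⟨m, hm, ?_⟩
    rw [hRker, MonoidHom.mem_ker, map_pow, hm']
  choose W hW1 hW2 using fun l : Fin n × Bool => exists_list S hS (φ (lt l))
  let T : Set G := ⋃ l, (fun w : List G => (w.prod)⁻¹) '' {w | w ∈ (W l).tails}
  have hT : T.Finite := by
    apply Set.finite_iUnion
    intro l
    exact (List.finite_toSet _).image _
  obtain ⟨L, hL⟩ := chainF.{u} R (max 2 r0) (T.ncard * k) (le_max_left _ _)
    (fun w hw => (hr0 w hw).trans (le_max_right _ _)) htors
  refine ⟨L, ?_⟩
  intro X _ _ C hC hk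
  letI : MulAction (FreeGroup (Fin n)) X := MulAction.compHom X φ
  have hsm : ∀ (g : FreeGroup (Fin n)) (x : X), g • x = φ g • x := fun _ _ => rfl
  refine hL X ?_ ?_ C hC ?_
  · intro w hw x
    rw [hsm]
    have : w ∈ φ.ker := by rw [← hRker]; exact Subgroup.subset_normalClosure hw
    rw [MonoidHom.mem_ker.1 this, one_smul]
  · intro x y
    obtain ⟨g, hg⟩ := MulAction.exists_smul_eq G x y
    obtain ⟨h, rfl⟩ := hφ g
    exact ⟨h, hg⟩
  · intro i hi
    have hsub : IB (α := Fin n) (C i) ⊆ (fun p : G × X => p.1 • p.2) '' (T ×ˢ bdry S (C i)) := by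
      rintro x ⟨hx, l, hl⟩
      rw [hsm, ← hW2 l] at hl
      obtain ⟨w, hw, hw'⟩ := exists_suffixG S (C i) x hx (W l) (hW1 l) hl
      refine ⟨((w.prod)⁻¹, w.prod • x), ⟨?_, hw'⟩, by simp⟩
      exact Set.mem_iUnion.2 ⟨l, w, hw, rfl⟩
    refine (Set.encard_le_encard hsub).trans ((Set.encard_image_le _ _).trans ?_)
    rw [Set.encard_prod, ← hT.cast_ncard_eq, Nat.cast_mul]
    exact mul_le_mul_right (hk i hi) _

/-- a finite chain of sets with `m` members gives a strictly decreasing sequence -/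
theorem seq_of_chain {X : Type u} (m : ℕ) : ∀ 𝒞 : Set (Set X), IsChain (· ⊆ ·) 𝒞 → 𝒞.encard = m →
    ∃ f : ℕ → Set X, (∀ i < m, f i ∈ 𝒞) ∧ ∀ i j, i < j → j < m → f j ⊂ f i := by
  induction m with
  | zero => intro 𝒞 _ _; exact ⟨fun _ => ∅, by simp, by simp⟩
  | succ m ih =>
    intro 𝒞 hch hcard
    have hfin : 𝒞.Finite := by
      rw [← Set.encard_lt_top_iff, hcard]; simp
    have hne : 𝒞.Nonempty := by
      rw [← Set.encard_pos, hcard]; simp
    obtain ⟨M, hM⟩ := hfin.exists_maximal hne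
    have hmax : ∀ D ∈ 𝒞, D ⊆ M := by
      intro D hD
      by_cases h : D = M
      · rw [h]
      · rcases hch hD hM.prop h with h1 | h1
        · exact h1
        · exact hM.le_of_ge hD h1
    obtain ⟨f, hf1, hf2⟩ := ih (𝒞 \ {M}) (hch.mono Set.diff_subset) (by
      have := Set.encard_diff_singleton_add_one hM.prop
      rw [hcard, Nat.cast_add, Nat.cast_one] at this
      exact ENat.add_left_injective_of_ne_top (n := 1) (by simp) this)
    refine ⟨fun i => if i = 0 then M else f (i - 1), ?_, ?_⟩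
    · intro i hi
      by_cases h : i = 0
      · simp only [h, if_true]; exact hM.prop
      · simp only [h, if_false]; exact (hf1 (i - 1) (by omega)).1
    · intro i j hij hj
      have hj0 : j ≠ 0 := by omega
      by_cases h : i = 0
      · simp only [h, hj0, if_true, if_false]
        have h3 := hf1 (j - 1) (by omega)
        exact (hmax _ h3.1).ssubset_of_ne h3.2
      · simp only [h, hj0, if_false]
        exact hf2 _ _ (by omega) (by omega)

/-- chain condition -/
theorem chain_bound (G : Type v) [Group G] [Group.IsFinitelyPresented G] (hG : IsMulTorsion G)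
    (S : Set G) (hS : Subgroup.closure S = ⊤) (k : ℕ) :
    ∃ L : ℕ, ∀ (X : Type u) [MulAction G X] [MulAction.IsPretransitive G X] (𝒞 : Set (Set X)),
      IsChain (· ⊆ ·) 𝒞 → (∀ C ∈ 𝒞, (bdry S C).encard ≤ k) → 𝒞.encard ≤ L := by
  obtain ⟨L, hL⟩ := chain_seq.{u, v} G hG S hS k
  refine ⟨L, ?_⟩
  intro X _ _ 𝒞 hch hk
  by_contra hlt
  push Not at hlt
  have h1 : ((L + 1 : ℕ) : ℕ∞) ≤ 𝒞.encard := by
    rw [Nat.cast_add, Nat.cast_one]
    exact Order.add_one_le_of_lt hlt
  obtain ⟨𝒟, h𝒟, hcard⟩ := Set.exists_subset_encard_eq h1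
  obtain ⟨f, hf1, hf2⟩ := seq_of_chain (L + 1) 𝒟 (hch.mono h𝒟) hcard
  exact hL X f (fun i j hij hj => hf2 i j hij (by omega)) (fun i hi => hk _ (h𝒟 (hf1 i (by omega))))

end Vale.Agent.P192
end
end

section

section

set_option linter.all false

namespace Vale.Agent.P192

universe u v

/-- a finitely generated group with a faithful action with orbits of bounded size is finite -/
theorem finite_of_bounded_orbits (G : Type v) [Group G] [Group.IsFinitelyPresented G]
    (X : Type u) [MulAction G X] [FaithfulSMul G X] (K : ℕ)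
    (h : ∀ x : X, (MulAction.orbit G x).encard ≤ K) : Finite G := by
  classical
  obtain ⟨n, φ, hφ, -⟩ := ‹Group.IsFinitelyPresented G›.out
  have hfin : Finite (G →* Equiv.Perm (Fin K)) := by
    refine Finite.of_injective (β := Fin n → Equiv.Perm (Fin K))
      (fun ρ i => ρ (φ (FreeGroup.of i))) ?_
    intro ρ ρ' hρ
    have h1 : ρ.comp φ = ρ'.comp φ := by
      apply FreeGroup.ext_hom
      intro a
      exact congrFun hρ a
    ext1 g
    obtain ⟨w, rfl⟩ := hφ g
    exact DFunLike.congr_fun h1 w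
  refine Finite.of_injective (β := (G →* Equiv.Perm (Fin K)) → Equiv.Perm (Fin K))
    (fun g ρ => ρ g) ?_
  intro g g' hgg
  apply FaithfulSMul.eq_of_smul_eq_smul (α := X)
  intro x
  obtain ⟨hOfin, hcard⟩ := Set.encard_le_coe_iff_finite_ncard_le.1 (h x)
  have : Fintype (MulAction.orbit G x) := hOfin.fintype
  have hc : Fintype.card (MulAction.orbit G x) ≤ Fintype.card (Fin K) := by
    rw [Fintype.card_fin]
    rwa [Set.ncard_eq_toFinset_card', Set.toFinset_card] at hcard
  obtain ⟨e⟩ := Function.Embedding.nonempty_of_card_le hc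
  let ρ : G →* Equiv.Perm (Fin K) :=
    (Equiv.Perm.viaEmbeddingHom e).comp (MulAction.toPermHom G (MulAction.orbit G x))
  have h1 : ρ g = ρ g' := congrFun hgg ρ
  have h2 : MulAction.toPermHom G (MulAction.orbit G x) g =
      MulAction.toPermHom G (MulAction.orbit G x) g' :=
    Equiv.Perm.viaEmbeddingHom_injective e h1
  have h3 := DFunLike.congr_fun h2 ⟨x, MulAction.mem_orbit_self x⟩
  have h4 := congrArg Subtype.val h3
  simpa using h4

/-- restricting a sequence of subsets of an orbit to the orbit -/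
theorem orbit_seq (G : Type v) [Group G] (S : Set G) (k L : ℕ)
    (hL : ∀ (X : Type u) [MulAction G X] [MulAction.IsPretransitive G X] (C : ℕ → Set X),
      (∀ i j, i < j → j ≤ L → C j ⊂ C i) → (∀ i ≤ L, (bdry S (C i)).encard ≤ k) → False)
    (X : Type u) [MulAction G X] (x : X) (C : ℕ → Set X)
    (hC : ∀ i j, i < j → j ≤ L → C j ⊂ C i) (hO : ∀ i ≤ L, C i ⊆ MulAction.orbit G x)
    (hk : ∀ i ≤ L, (bdry S (C i)).encard ≤ k) : False := by
  refine hL (MulAction.orbit G x) (fun i => {y | y.1 ∈ C i}) ?_ ?_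
  · intro i j hij hj
    have h := hC i j hij hj
    refine ⟨fun y hy => h.1 hy, fun h' => ?_⟩
    obtain ⟨z, hz1, hz2⟩ := Set.exists_of_ssubset h
    exact hz2 (h' (a := ⟨z, hO i (by omega) hz1⟩) hz1)
  · intro i hi
    refine le_trans ?_ (hk i hi)
    rw [← Subtype.val_injective.encard_image (bdry S {y : MulAction.orbit G x | y.1 ∈ C i})]
    apply Set.encard_le_encard
    rintro _ ⟨y, ⟨hy, s, hs, h⟩, rfl⟩
    exact ⟨hy, s, hs, h⟩

theorem decomp_step {X : Type u} (k M : ℕ) (C : Set X) (𝒟 : Set (Set X)) (h𝒟 : 𝒟.encard ≤ k)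
    (hcov : C ⊆ ⋃₀ 𝒟) (hC : ((k * M : ℕ) : ℕ∞) < C.encard) : ∃ D ∈ 𝒟, (M : ℕ∞) < D.encard := by
  by_contra hno
  push Not at hno
  obtain ⟨hfin, hcard⟩ := Set.encard_le_coe_iff_finite_ncard_le.1 h𝒟
  have h1 : C ⊆ ⋃ D ∈ hfin.toFinset, D := by
    intro x hx
    obtain ⟨D, hD, hxD⟩ := hcov hx
    simp only [Set.mem_iUnion]
    exact ⟨D, by simpa using hD, hxD⟩
  have h2 : C.encard ≤ ∑ D ∈ hfin.toFinset, D.encard :=
    (Set.encard_le_encard h1).trans (Finset.set_encard_biUnion_le _ _)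
  have h3 : ∑ D ∈ hfin.toFinset, D.encard ≤ hfin.toFinset.card • (M : ℕ∞) := by
    apply Finset.sum_le_card_nsmul
    intro D hD
    exact hno D (by simpa using hD)
  have h4 : hfin.toFinset.card ≤ k := by
    rw [← Set.ncard_eq_toFinset_card _ hfin]; exact hcard
  have h5 : hfin.toFinset.card • (M : ℕ∞) ≤ ((k * M : ℕ) : ℕ∞) := by
    rw [nsmul_eq_mul, ← Nat.cast_mul]
    exact_mod_cast Nat.mul_le_mul_right M h4
  exact absurd hC (not_lt.2 (h2.trans (h3.trans h5)))

/-- finitely presented periodic groups with a faithful action with recursively decomposable orbits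
are finite -/
theorem finite_of_decomposable (G : Type v) [Group G] [Group.IsFinitelyPresented G]
    (hG : IsMulTorsion G) (S : Set G) (hS : Subgroup.closure S = ⊤)
    (X : Type u) [MulAction G X] [FaithfulSMul G X] (k : ℕ) (ℱ : Set (Set X))
    (h1 : ∀ x : X, MulAction.orbit G x ∈ ℱ)
    (h2 : ∀ C ∈ ℱ, (bdry S C).encard ≤ k)
    (h3 : ∀ C ∈ ℱ, (k : ℕ∞) < C.encard →
      ∃ 𝒟 ⊆ ℱ, 𝒟.encard ≤ k ∧ (∀ D ∈ 𝒟, D ⊂ C) ∧ C ⊆ ⋃₀ 𝒟) : Finite G := by
  obtain ⟨L, hL⟩ := chain_seq.{u, v} G hG S hS k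
  have desc : ∀ m : ℕ, ∀ C ∈ ℱ, (((k + 1) ^ (m + 1) : ℕ) : ℕ∞) < C.encard →
      ∃ f : ℕ → Set X, f 0 = C ∧ (∀ i ≤ m + 1, f i ∈ ℱ) ∧
        ∀ i j, i < j → j ≤ m + 1 → f j ⊂ f i := by
    intro m
    induction m with
    | zero =>
      intro C hC hcard
      have hk : (k : ℕ∞) < C.encard := by
        refine lt_of_le_of_lt ?_ hcard
        exact_mod_cast (by simp : k ≤ (k + 1) ^ (0 + 1))
      obtain ⟨𝒟, hD1, hD2, hD3, hD4⟩ := h3 C hC hk
      have hne : C.Nonempty := by
        rw [← Set.encard_pos]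
        exact lt_of_le_of_lt (by simp) hk
      obtain ⟨x, hx⟩ := hne
      obtain ⟨D, hD, -⟩ := hD4 hx
      refine ⟨fun i => if i = 0 then C else D, by simp, ?_, ?_⟩
      · intro i hi
        by_cases h : i = 0
        · simp only [h, if_true]; exact hC
        · simp only [h, if_false]; exact hD1 hD
      · intro i j hij hj
        have hi : i = 0 := by omega
        have hj' : j ≠ 0 := by omega
        simp only [hi, hj', if_true, if_false]
        exact hD3 D hD
    | succ m ih =>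
      intro C hC hcard
      have hk : (k : ℕ∞) < C.encard := by
        refine lt_of_le_of_lt ?_ hcard
        have : k ≤ (k + 1) ^ (m + 1 + 1) := by
          calc k ≤ k + 1 := by omega
            _ = (k + 1) ^ 1 := by simp
            _ ≤ (k + 1) ^ (m + 1 + 1) := Nat.pow_le_pow_right (by omega) (by omega)
        exact_mod_cast this
      obtain ⟨𝒟, hD1, hD2, hD3, hD4⟩ := h3 C hC hk
      obtain ⟨D, hD, hDc⟩ := decomp_step k ((k + 1) ^ (m + 1)) C 𝒟 hD2 hD4 (by
        refine lt_of_le_of_lt ?_ hcard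
        have : k * (k + 1) ^ (m + 1) ≤ (k + 1) ^ (m + 1 + 1) := by
          rw [pow_succ (k + 1) (m + 1), mul_comm]
          exact Nat.mul_le_mul_left _ (by omega)
        exact_mod_cast this)
      obtain ⟨f, hf0, hf1, hf2⟩ := ih D (hD1 hD) hDc
      refine ⟨fun i => if i = 0 then C else f (i - 1), by simp, ?_, ?_⟩
      · intro i hi
        by_cases h : i = 0
        · simp only [h, if_true]; exact hC
        · simp only [h, if_false]; exact hf1 _ (by omega)
      · intro i j hij hj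
        have hj' : j ≠ 0 := by omega
        by_cases h : i = 0
        · simp only [h, hj', if_true, if_false]
          have h5 : f (j - 1) ⊆ D := by
            by_cases h6 : j - 1 = 0
            · rw [h6, hf0]
            · have := hf2 0 (j - 1) (by omega) (by omega)
              rw [hf0] at this
              exact this.1
          exact lt_of_le_of_lt h5 (hD3 D hD)
        · simp only [h, hj', if_false]
          exact hf2 _ _ (by omega) (by omega)
  apply finite_of_bounded_orbits G X ((k + 1) ^ (L + 1))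
  intro x
  by_contra hcon
  push Not at hcon
  obtain ⟨f, hf0, hf1, hf2⟩ := desc L _ (h1 x) hcon
  refine orbit_seq G S k L hL X x f (fun i j hij hj => hf2 i j hij (by omega)) ?_
    (fun i hi => h2 _ (hf1 i (by omega)))
  intro i hi
  by_cases h : i = 0
  · rw [h, hf0]
  · have := hf2 0 i (by omega) (by omega)
    rw [hf0] at this
    exact this.1

/-- finitely presented periodic groups acting faithfully on a linear order with bounded cuts -/
theorem finite_of_cutwidth (G : Type v) [Group G] [Group.IsFinitelyPresented G]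
    (hG : IsMulTorsion G) (S : Set G) (hS : Subgroup.closure S = ⊤)
    (X : Type u) [LinearOrder X] [MulAction G X] [FaithfulSMul G X] (k : ℕ)
    (h : ∀ x : X, {y | y ∈ MulAction.orbit G x ∧ y ≤ x ∧ ∃ s ∈ S, x < s • y ∨ x < s⁻¹ • y}.encard
      ≤ k) : Finite G := by
  obtain ⟨L, hL⟩ := chain_bound.{u, v} G hG S hS k
  apply finite_of_bounded_orbits G X L
  intro x
  let J : MulAction.orbit G x → Set (MulAction.orbit G x) := fun y => {z | z.1 ≤ y.1}
  have hinj : Function.Injective J := by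
    intro y z hyz
    have h1 : y ∈ J z := by rw [← hyz]; exact le_refl y.1
    have h2 : z ∈ J y := by rw [hyz]; exact le_refl z.1
    exact Subtype.ext (le_antisymm h1 h2)
  have h1 := hL (MulAction.orbit G x) (Set.range J) (by
    rintro _ ⟨y, rfl⟩ _ ⟨z, rfl⟩ _
    rcases le_total y.1 z.1 with hyz | hyz
    · left; exact fun w hw => le_trans hw hyz
    · right; exact fun w hw => le_trans hw hyz) (by
    rintro _ ⟨y, rfl⟩
    refine le_trans ?_ (h y.1)
    rw [← Subtype.val_injective.encard_image (bdry S (J y))]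
    apply Set.encard_le_encard
    rintro _ ⟨w, ⟨hw, s, hs, hw'⟩, rfl⟩
    refine ⟨?_, hw, s, hs, ?_⟩
    · rw [MulAction.orbit_eq_iff.2 y.2]; exact w.2
    · rcases hw' with hw' | hw'
      · left; exact not_le.1 hw'
      · right; exact not_le.1 hw')
  rw [← Set.image_univ, hinj.encard_image, Set.encard_univ] at h1
  exact h1

end Vale.Agent.P192
end
end

section

section

set_option linter.all false

namespace Vale.Agent.P192

universe u v w

section tree

variable {X : Type u} {V : Type w} (T : SimpleGraph V) (B : V → Set X)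

/-- union of the bags at a node and at a set of further nodes -/
def carr (u : V) (Z : Set V) : Set X := {x | x ∈ B u ∨ ∃ t ∈ Z, x ∈ B t}

/-- `Z` avoids the root and is separated from the rest of the tree by `u` -/
structure Good (r u : V) (Z : Set V) : Prop where
  hr : r ∉ Z
  hu : u ∉ Z
  hcl : ∀ t ∈ Z, ∀ t', T.Adj t t' → t' ≠ u → t' ∈ Z

variable {T B}

theorem Good.walk {r u : V} {Z : Set V} (h : Good T r u Z) {t t' : V} (p : T.Walk t t')
    (ht : t ∈ Z) (ht' : t' ∉ Z) : u ∈ p.support := by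
  induction p with
  | nil => exact absurd ht ht'
  | @cons a b c hab q ih =>
    by_cases hb : b = u
    · subst hb
      rw [SimpleGraph.Walk.support_cons]
      exact List.mem_cons_of_mem _ (SimpleGraph.Walk.start_mem_support q)
    · rw [SimpleGraph.Walk.support_cons]
      exact List.mem_cons_of_mem _ (ih (h.hcl _ ht _ hab hb) ht')

theorem Good.exit {r u : V} {Z : Set V} (h : Good T r u Z) {t t' : V} (p : T.Walk t t')
    (ht : t ∈ Z) (ht' : t' ∉ Z) : ∃ w ∈ Z, T.Adj w u := by
  induction p with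
  | nil => exact absurd ht ht'
  | @cons a b c hab q ih =>
    by_cases hb : b ∈ Z
    · exact ih hb ht'
    · have : b = u := by
        by_contra hne
        exact hb (h.hcl _ ht _ hab hne)
      subst this
      exact ⟨_, ht, hab⟩

theorem Good.bag {r u : V} {Z : Set V} (h : Good T r u Z)
    (hconn : ∀ x : X, (T.induce {t | x ∈ B t}).Connected) {x : X} {t t' : V}
    (hx : x ∈ B t) (ht : t ∈ Z) (hx' : x ∈ B t') (ht' : t' ∉ Z) : x ∈ B u := by
  obtain ⟨p⟩ := (hconn x).preconnected ⟨t, hx⟩ ⟨t', hx'⟩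
  have h1 := h.walk (p.map (SimpleGraph.Embedding.induce {t | x ∈ B t}).toHom) ht ht'
  rw [SimpleGraph.Walk.support_map, List.mem_map] at h1
  obtain ⟨a, -, ha⟩ := h1
  have h2 : x ∈ B a.1 := a.2
  have h3 : a.1 = u := ha
  rwa [h3] at h2

theorem Good.bdry {G : Type v} [Group G] [MulAction G X] {S : Set G} {r u : V} {Z : Set V}
    (h : Good T r u Z) (hconn : ∀ x : X, (T.induce {t | x ∈ B t}).Connected)
    (hcov : ∀ s ∈ S, ∀ x : X, ∃ t, x ∈ B t ∧ s • x ∈ B t) :
    bdry S (carr B u Z) ⊆ B u := by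
  rintro x ⟨hx, s, hs, hsx⟩
  rcases hx with hx | ⟨t, ht, hxt⟩
  · exact hx
  rcases hsx with hsx | hsx
  · obtain ⟨t', h1, h2⟩ := hcov s hs x
    refine h.bag hconn hxt ht h1 fun ht' => hsx (Or.inr ⟨t', ht', h2⟩)
  · obtain ⟨t', h1, h2⟩ := hcov s hs (s⁻¹ • x)
    rw [smul_inv_smul] at h2
    refine h.bag hconn hxt ht h2 fun ht' => hsx (Or.inr ⟨t', ht', h1⟩)

theorem Good.depth (hT : T.IsTree) {r u : V} {Z : Set V} (h : Good T r u Z) {t : V} (ht : t ∈ Z) :
    T.dist r u < T.dist r t := by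
  classical
  obtain ⟨p, hp⟩ := hT.connected.exists_walk_length_eq_dist r t
  have h1 : u ∈ p.reverse.support := h.walk p.reverse ht h.hr
  rw [SimpleGraph.Walk.support_reverse, List.mem_reverse] at h1
  have h2 : u ≠ t := fun h' => h.hu (h' ▸ ht)
  calc T.dist r u ≤ (p.takeUntil u h1).length := SimpleGraph.dist_le _
    _ < p.length := SimpleGraph.Walk.length_takeUntil_lt_length h1 h2
    _ = _ := hp

/-- A tree decomposition of small width gives a decomposable family. -/
theorem tree_step (hT : T.IsTree) (r : V) (k : ℕ) (hB : ∀ t, (B t).encard ≤ k)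
    (hconn : ∀ x : X, (T.induce {t | x ∈ B t}).Connected) (Y : Set X)
    (hY : (k : ℕ∞) < Y.encard) (hrep : ∃ u Z, Good T r u Z ∧ Y = carr B u Z) :
    ∃ u₁ Z₁ u₂ Z₂, Good T r u₁ Z₁ ∧ Good T r u₂ Z₂ ∧ carr B u₁ Z₁ ⊂ Y ∧ carr B u₂ Z₂ ⊂ Y ∧
      Y ⊆ carr B u₁ Z₁ ∪ carr B u₂ Z₂ := by
  classical
  have hτ : ∀ x : X, ∃ t, x ∈ B t := fun x => by
    obtain ⟨t⟩ := (hconn x).nonempty
    exact ⟨t.1, t.2⟩
  choose τ hτ using hτ
  have hBY : ∀ t, ¬ Y ⊆ B t := by
    intro t h
    exact absurd hY (not_lt.2 ((Set.encard_le_encard h).trans (hB t)))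
  -- bound on the depth
  let P : ℕ → Prop := fun d => ∃ u Z, Good T r u Z ∧ Y = carr B u Z ∧ T.dist r u = d
  obtain ⟨A, hAY, hA⟩ : ∃ A ⊆ Y, A.encard = ((k + 1 : ℕ) : ℕ∞) := by
    apply Set.exists_subset_encard_eq
    rw [Nat.cast_add, Nat.cast_one]
    exact Order.add_one_le_of_lt hY
  have hAfin : A.Finite := Set.finite_of_encard_eq_coe hA
  obtain ⟨D0, hD0⟩ : ∃ D0, ∀ y ∈ A, T.dist r (τ y) ≤ D0 := by
    obtain ⟨b, hb⟩ := (hAfin.image (fun y => T.dist r (τ y))).bddAbove
    exact ⟨b, fun y hy => hb ⟨y, hy, rfl⟩⟩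
  have hbound : ∀ d, P d → d ≤ D0 := by
    rintro d ⟨u, Z, hgood, hYe, rfl⟩
    by_contra hlt
    push Not at hlt
    have hsub : A ⊆ B u := by
      intro y hy
      have h1 : τ y ∉ Z := by
        intro h2
        have := hgood.depth hT h2
        have := hD0 y hy
        omega
      have h2 : y ∈ carr B u Z := hYe ▸ hAY hy
      rcases h2 with h2 | ⟨t, ht, h2⟩
      · exact h2
      · exact hgood.bag hconn h2 ht (hτ y) h1
    have h3 := (Set.encard_le_encard hsub).trans (hB u)
    rw [hA] at h3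
    have : k + 1 ≤ k := by exact_mod_cast h3
    omega
  obtain ⟨d, hd, hmax⟩ : ∃ d, P d ∧ ∀ d', P d' → d' ≤ d := by
    obtain ⟨u, Z, hg, hYe⟩ := hrep
    have hex : P (T.dist r u) := ⟨u, Z, hg, hYe, rfl⟩
    refine ⟨Nat.findGreatest P D0, Nat.findGreatest_spec (hbound _ hex) hex, ?_⟩
    intro m' hm'
    exact Nat.le_findGreatest (hbound _ hm') hm'
  obtain ⟨u, Z, hgood, hYe, hdu⟩ := hd
  -- a point outside of the bag at `u`
  obtain ⟨y, hyY, hyu⟩ := Set.not_subset.1 (hBY u)
  obtain ⟨t1, ht1, hyt1⟩ : ∃ t1 ∈ Z, y ∈ B t1 := by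
    rw [hYe] at hyY
    rcases hyY with h | h
    · exact absurd h hyu
    · exact h
  let C1 : Set V := {t | ∃ p : T.Walk t1 t, u ∉ p.support}
  have hC1Z : C1 ⊆ Z := by
    rintro t ⟨p, hp⟩
    by_contra ht
    exact hp (hgood.walk p ht1 ht)
  have hut1 : u ≠ t1 := fun h => hgood.hu (h ▸ ht1)
  have ht1C : t1 ∈ C1 := ⟨SimpleGraph.Walk.nil, by simpa using hut1⟩
  have hgC1 : Good T r u C1 := by
    refine ⟨fun h => hgood.hr (hC1Z h), fun h => hgood.hu (hC1Z h), ?_⟩
    rintro t ⟨p, hp⟩ t' hadj hne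
    refine ⟨p.concat hadj, ?_⟩
    rw [SimpleGraph.Walk.support_concat]
    simp only [List.concat_eq_append, List.mem_append, List.mem_singleton, not_or]
    exact ⟨hp, fun h => hne h.symm⟩
  have hgZ : Good T r u (Z \ C1) := by
    refine ⟨fun h => hgood.hr h.1, fun h => hgood.hu h.1, ?_⟩
    rintro t ⟨ht, htC⟩ t' hadj hne
    refine ⟨hgood.hcl t ht t' hadj hne, fun ht' => htC ?_⟩
    exact hgC1.hcl t' ht' t hadj.symm (fun h => hgood.hu (h ▸ ht))
  by_cases hcase : carr B u C1 = Y
  · -- descend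
    obtain ⟨p⟩ := hT.connected.preconnected t1 u
    obtain ⟨w, hw, hwu⟩ := hgC1.exit p ht1C hgC1.hu
    have hgw : Good T r w (C1 \ {w}) := by
      refine ⟨fun h => hgC1.hr h.1, fun h => h.2 rfl, ?_⟩
      rintro t ⟨ht, htw⟩ t' hadj hne
      refine ⟨?_, hne⟩
      by_cases htu : t' = u
      · exfalso
        subst htu
        obtain ⟨p1, hp1⟩ := ht
        obtain ⟨p2, hp2⟩ := hw
        have hq : t' ∉ (p1.reverse.append p2).bypass.support := by
          intro h
          have h1 := SimpleGraph.Walk.support_bypass_subset_support _ h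
          rw [SimpleGraph.Walk.mem_support_append_iff, SimpleGraph.Walk.support_reverse,
            List.mem_reverse] at h1
          exact h1.elim hp1 hp2
        have hqp := (p1.reverse.append p2).bypass_isPath
        have hpath1 : (SimpleGraph.Walk.cons hadj.symm (p1.reverse.append p2).bypass).IsPath :=
          (SimpleGraph.Walk.cons_isPath_iff _ _).2 ⟨hqp, hq⟩
        have hpath2 : (SimpleGraph.Walk.cons hwu.symm SimpleGraph.Walk.nil).IsPath := by
          rw [SimpleGraph.Walk.cons_isPath_iff]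
          refine ⟨SimpleGraph.Walk.IsPath.nil, ?_⟩
          simpa using hwu.symm.ne
        have h2 := hT.isAcyclic.path_unique ⟨_, hpath1⟩ ⟨_, hpath2⟩
        have h3 := congrArg (fun q => q.1.length) h2
        simp only [SimpleGraph.Walk.length_cons, SimpleGraph.Walk.length_nil] at h3
        have h4 : (p1.reverse.append p2).bypass.length = 0 := by omega
        exact htw (SimpleGraph.Walk.eq_of_length_eq_zero h4)
      · exact hgC1.hcl t ht t' hadj htu
    have hgu : Good T r u ∅ := ⟨by simp, by simp, by simp⟩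
    have hsub1 : carr B w (C1 \ {w}) ⊆ Y := by
      rw [← hcase]
      rintro x (hx | ⟨t, ht, hx⟩)
      · exact Or.inr ⟨w, hw, hx⟩
      · exact Or.inr ⟨t, ht.1, hx⟩
    have hne1 : carr B w (C1 \ {w}) ≠ Y := by
      intro h
      have h1 := hmax _ ⟨w, C1 \ {w}, hgw, h.symm, rfl⟩
      have h2 := hgC1.depth hT hw
      omega
    have hsub2 : carr B u (∅ : Set V) ⊆ Y := by
      rw [← hcase]
      rintro x (hx | ⟨t, ht, hx⟩)
      · exact Or.inl hx
      · exact absurd ht (Set.notMem_empty t)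
    have hne2 : carr B u (∅ : Set V) ≠ Y := by
      intro h
      apply hBY u
      rw [← h]
      rintro x (hx | ⟨t, ht, hx⟩)
      · exact hx
      · exact absurd ht (Set.notMem_empty t)
    refine ⟨w, C1 \ {w}, u, ∅, hgw, hgu, hsub1.ssubset_of_ne hne1, hsub2.ssubset_of_ne hne2, ?_⟩
    intro x hx
    rw [← hcase] at hx
    rcases hx with hx | ⟨t, ht, hx⟩
    · exact Or.inr (Or.inl hx)
    · by_cases htw : t = w
      · subst htw
        exact Or.inl (Or.inl hx)
      · exact Or.inl (Or.inr ⟨t, ⟨ht, htw⟩, hx⟩)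
  · -- split
    have hsub1 : carr B u C1 ⊆ Y := by
      rw [hYe]
      rintro x (hx | ⟨t, ht, hx⟩)
      · exact Or.inl hx
      · exact Or.inr ⟨t, hC1Z ht, hx⟩
    have hsub2 : carr B u (Z \ C1) ⊆ Y := by
      rw [hYe]
      rintro x (hx | ⟨t, ht, hx⟩)
      · exact Or.inl hx
      · exact Or.inr ⟨t, ht.1, hx⟩
    have hne2 : carr B u (Z \ C1) ≠ Y := by
      intro h
      have h1 : y ∈ carr B u (Z \ C1) := by rw [h]; exact hyY
      rcases h1 with h1 | ⟨t, ht, h1⟩
      · exact hyu h1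
      · exact hyu (hgC1.bag hconn hyt1 ht1C h1 ht.2)
    refine ⟨u, C1, u, Z \ C1, hgC1, hgZ, hsub1.ssubset_of_ne hcase, hsub2.ssubset_of_ne hne2, ?_⟩
    intro x hx
    rw [hYe] at hx
    rcases hx with hx | ⟨t, ht, hx⟩
    · exact Or.inl (Or.inl hx)
    · by_cases htC : t ∈ C1
      · exact Or.inl (Or.inr ⟨t, htC, hx⟩)
      · exact Or.inr (Or.inr ⟨t, ⟨ht, htC⟩, hx⟩)

end tree

end Vale.Agent.P192
end
end

section

section

set_option linter.all false

namespace Vale.Agent.P192

universe u v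

/-- finitely presented periodic groups of bounded automorphisms of rooted trees are finite -/
theorem finite_of_boundedActivity (A : Type u) [Finite A] (G : Type v) [Group G]
    [Group.IsFinitelyPresented G] (hG : IsMulTorsion G) [MulAction G (List A)]
    [FaithfulSMul G (List A)] (hlen : ∀ (g : G) (v : List A), (g • v).length = v.length)
    (hb : ∀ g : G, ∃ M : ℕ, ∀ n : ℕ,
      {v : List A | v.length = n ∧ ∃ w : List A, g • (v ++ w) ≠ g • v ++ w}.encard ≤ M) :
    Finite G := by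
  classical
  obtain ⟨n, φ, hφ, -⟩ := ‹Group.IsFinitelyPresented G›.out
  let S : Set G := Set.range (fun i : Fin n => φ (FreeGroup.of i))
  have hSfin : S.Finite := Set.finite_range _
  have hS : Subgroup.closure S = ⊤ := by
    have h1 : S = φ '' (Set.range (FreeGroup.of : Fin n → FreeGroup (Fin n))) := by
      rw [← Set.range_comp]; rfl
    rw [h1, ← MonoidHom.map_closure, FreeGroup.closure_range_of, ← MonoidHom.range_eq_map,
      MonoidHom.range_eq_top.2 hφ]
  choose c hc using hb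
  let T : Finset G := (hSfin.union (hSfin.image (fun g => g⁻¹))).toFinset
  have hT : ∀ g, g ∈ T ↔ (g ∈ S ∨ g ∈ (fun g => g⁻¹) '' S) := by
    intro g; simp only [T, Set.Finite.mem_toFinset, Set.mem_union]
  let k : ℕ := max (Nat.card A) (∑ g ∈ T, c g) + 1
  let F : Set (Set (List A)) :=
    {C | ∃ x u : List A, C = {w | w ∈ MulAction.orbit G x ∧ u <:+ w}}
  have horb : ∀ x w : List A, w ∈ MulAction.orbit G x → w.length = x.length := by
    rintro x _ ⟨g, rfl⟩
    exact hlen g x
  refine finite_of_decomposable G hG S hS (List A) k F ?_ ?_ ?_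
  · intro x
    exact ⟨x, [], by ext w; simp⟩
  · rintro _ ⟨x, u, rfl⟩
    have hsub : bdry S {w | w ∈ MulAction.orbit G x ∧ u <:+ w} ⊆
        ⋃ g ∈ T, (fun v => v ++ u) '' {v : List A | v.length = x.length - u.length ∧
          ∃ w : List A, g • (v ++ w) ≠ g • v ++ w} := by
      rintro w ⟨⟨hw1, hw2⟩, s, hs, h⟩
      have key : ∀ g ∈ T, g • w ∉ {w | w ∈ MulAction.orbit G x ∧ u <:+ w} →
          w ∈ ⋃ g ∈ T, (fun v => v ++ u) '' {v : List A | v.length = x.length - u.length ∧
          ∃ w : List A, g • (v ++ w) ≠ g • v ++ w} := by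
        intro g hgT hg
        obtain ⟨v, rfl⟩ := hw2
        have h1 : g • (v ++ u) ∈ MulAction.orbit G x :=
          MulAction.mem_orbit_of_mem_orbit g hw1
        have h2 : ¬ (u <:+ g • (v ++ u)) := fun h => hg ⟨h1, h⟩
        have h3 := horb x _ hw1
        simp only [Set.mem_iUnion]
        refine ⟨g, hgT, v, ⟨?_, u, ?_⟩, rfl⟩
        · rw [List.length_append] at h3; omega
        · intro h4
          apply h2
          rw [h4]
          exact List.suffix_append _ _
      rcases h with h | h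
      · exact key s ((hT s).2 (Or.inl hs)) h
      · exact key s⁻¹ ((hT _).2 (Or.inr ⟨s, hs, rfl⟩)) h
    refine (Set.encard_le_encard hsub).trans ?_
    refine (Finset.set_encard_biUnion_le _ _).trans ?_
    have h5 : ∑ g ∈ T, ((fun v => v ++ u) '' {v : List A | v.length = x.length - u.length ∧
          ∃ w : List A, g • (v ++ w) ≠ g • v ++ w}).encard ≤ ∑ g ∈ T, (c g : ℕ∞) := by
      apply Finset.sum_le_sum
      intro g _
      exact (Set.encard_image_le _ _).trans (hc g _)
    refine h5.trans ?_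
    have h6 : ∑ g ∈ T, c g ≤ k := by
      have := le_max_right (Nat.card A) (∑ g ∈ T, c g)
      show _ ≤ max (Nat.card A) (∑ g ∈ T, c g) + 1
      omega
    exact_mod_cast h6
  · rintro C hCF hC
    obtain ⟨x, u0, hu0⟩ := hCF
    have h1C : 1 < C.encard := by
      refine lt_of_le_of_lt ?_ hC
      have : 1 ≤ k := by show 1 ≤ max (Nat.card A) (∑ g ∈ T, c g) + 1; omega
      exact_mod_cast this
    obtain ⟨y, hy⟩ : C.Nonempty := by
      rw [← Set.encard_pos]
      exact lt_trans (by simp) h1C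
    -- choose the longest representation
    let P : ℕ → Prop := fun m => ∃ u : List A, u.length = m ∧
      C = {w | w ∈ MulAction.orbit G x ∧ u <:+ w}
    have hbound : ∀ m, P m → m ≤ x.length := by
      rintro m ⟨u, rfl, hu⟩
      rw [hu] at hy
      rw [← horb x y hy.1]
      exact hy.2.length_le
    obtain ⟨m, hm, hmax⟩ : ∃ m, P m ∧ ∀ m', P m' → m' ≤ m := by
      have hex : ∃ m, P m := ⟨u0.length, u0, rfl, hu0⟩
      refine ⟨Nat.findGreatest P x.length, Nat.findGreatest_spec (hbound _ hex.choose_spec)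
        hex.choose_spec, ?_⟩
      intro m' hm'
      exact Nat.le_findGreatest (hbound _ hm') hm'
    obtain ⟨u, hum, hu⟩ := hm
    refine ⟨Set.range (fun a : A => {w | w ∈ MulAction.orbit G x ∧ (a :: u) <:+ w}), ?_, ?_, ?_, ?_⟩
    · rintro _ ⟨a, rfl⟩
      exact ⟨x, a :: u, rfl⟩
    · rw [← Set.image_univ]
      refine (Set.encard_image_le _ _).trans ?_
      rw [Set.encard_univ, ENat.card_eq_coe_natCard]
      have : Nat.card A ≤ k := by
        have := le_max_left (Nat.card A) (∑ g ∈ T, c g)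
        show _ ≤ max (Nat.card A) (∑ g ∈ T, c g) + 1
        omega
      exact_mod_cast this
    · rintro _ ⟨a, rfl⟩
      have hsub : {w | w ∈ MulAction.orbit G x ∧ (a :: u) <:+ w} ⊆ C := by
        rw [hu]
        rintro w ⟨h1, h2⟩
        exact ⟨h1, (List.suffix_cons a u).trans h2⟩
      refine hsub.ssubset_of_ne ?_
      intro h
      have := hmax (m + 1) ⟨a :: u, by simp [hum], h.symm⟩
      omega
    · intro w hw
      have hw' := hw
      rw [hu] at hw'
      obtain ⟨h1, v, hv⟩ := hw'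
      rcases List.eq_nil_or_concat v with h2 | ⟨v', a, h2⟩
      · exfalso
        subst h2
        simp only [List.nil_append] at hv
        -- then C has at most one element
        have h3 : C ⊆ {w} := by
          intro z hz
          rw [hu] at hz
          obtain ⟨hz1, hz2⟩ := hz
          have h4 : z.length = w.length := (horb x z hz1).trans (horb x w h1).symm
          rw [Set.mem_singleton_iff, ← hv]
          exact (hz2.eq_of_length (by rw [h4, hv])).symm
        have h4 := Set.encard_le_encard h3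
        rw [Set.encard_singleton] at h4
        exact absurd h1C (not_lt.2 h4)
      · refine ⟨_, ⟨a, rfl⟩, h1, v', ?_⟩
        rw [← hv, h2]
        simp

end Vale.Agent.P192
end
end

section

section

set_option linter.all false

namespace Vale.Agent.P192

/-- finitely presented periodic groups of permutations of the integers with bounded displacement
are finite -/
theorem finite_of_boundedDisplacement (G : Subgroup (Equiv.Perm ℤ)) [Group.IsFinitelyPresented G]
    (hG : IsMulTorsion G) (hb : ∀ g ∈ G, ∃ c : ℕ, ∀ n : ℤ, |g n - n| ≤ c) : Finite G := by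
  obtain ⟨n, φ, hφ, -⟩ := ‹Group.IsFinitelyPresented G›.out
  let S : Set G := Set.range (fun i : Fin n => φ (FreeGroup.of i))
  have hSfin : S.Finite := Set.finite_range _
  have hS : Subgroup.closure S = ⊤ := by
    have h1 : S = φ '' (Set.range (FreeGroup.of : Fin n → FreeGroup (Fin n))) := by
      rw [← Set.range_comp]; rfl
    rw [h1, ← MonoidHom.map_closure, FreeGroup.closure_range_of, ← MonoidHom.range_eq_map,
      MonoidHom.range_eq_top.2 hφ]
  choose c hc using fun g : G => hb g.1 g.2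
  obtain ⟨c0, hc0⟩ : ∃ c0, ∀ s ∈ S, c s ≤ c0 := by
    obtain ⟨b, hb⟩ := (hSfin.image c).bddAbove
    exact ⟨b, fun w hw => hb ⟨w, hw, rfl⟩⟩
  have hsm : ∀ (g : G) (m : ℤ), g • m = g.1 m := fun _ _ => rfl
  refine finite_of_cutwidth G hG S hS ℤ c0 ?_
  intro x
  have hsub : {y : ℤ | y ∈ MulAction.orbit G x ∧ y ≤ x ∧ ∃ s ∈ S, x < s • y ∨ x < s⁻¹ • y} ⊆
      (Finset.Ioc (x - c0) x : Finset ℤ) := by
    rintro y ⟨-, hy, s, hs, h⟩
    have h1 := hc0 s hs
    rw [Finset.coe_Ioc]
    refine ⟨?_, hy⟩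
    rcases h with h | h
    · have h2 := hc s y
      rw [hsm] at h
      rw [abs_le] at h2
      have : (c s : ℤ) ≤ c0 := by exact_mod_cast h1
      linarith [h2.2]
    · have h2 := hc s (s⁻¹ • y)
      have h3 : s.1 (s⁻¹ • y) = y := by
        rw [← hsm, smul_inv_smul]
      rw [h3, abs_le] at h2
      have : (c s : ℤ) ≤ c0 := by exact_mod_cast h1
      linarith [h2.1]
  refine (Set.encard_le_encard hsub).trans ?_
  rw [Set.encard_coe_eq_coe_finsetCard]
  simp

end Vale.Agent.P192
end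
end

section

section

set_option linter.all false

namespace Vale.Agent.P192

universe u v w

/-- in a finitely generated group there is a normal subgroup of finite index acting trivially on
all orbits of size at most `K` of all actions -/
theorem exists_kernel (G : Type v) [Group G] [Group.IsFinitelyPresented G] (K : ℕ) :
    ∃ N : Subgroup G, N.Normal ∧ N.FiniteIndex ∧ ∀ (X : Type u) [MulAction G X] (x : X),
      (MulAction.orbit G x).encard ≤ K → ∀ g ∈ N, g • x = x := by
  classical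
  obtain ⟨n, φ, hφ, -⟩ := ‹Group.IsFinitelyPresented G›.out
  have hfin : Finite (G →* Equiv.Perm (Fin K)) := by
    refine Finite.of_injective (β := Fin n → Equiv.Perm (Fin K))
      (fun ρ i => ρ (φ (FreeGroup.of i))) ?_
    intro ρ ρ' hρ
    have h1 : ρ.comp φ = ρ'.comp φ := by
      apply FreeGroup.ext_hom
      intro a
      exact congrFun hρ a
    ext1 g
    obtain ⟨w, rfl⟩ := hφ g
    exact DFunLike.congr_fun h1 w
  let Φ : G →* ((G →* Equiv.Perm (Fin K)) → Equiv.Perm (Fin K)) :=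
    Pi.monoidHom (fun ρ => ρ)
  have hN : Φ.ker.FiniteIndex := by
    haveI : Finite Φ.range := inferInstance
    exact Subgroup.finiteIndex_ker Φ
  refine ⟨Φ.ker, inferInstance, hN, ?_⟩
  intro X _ x h g hg
  obtain ⟨hOfin, hcard⟩ := Set.encard_le_coe_iff_finite_ncard_le.1 h
  have : Fintype (MulAction.orbit G x) := hOfin.fintype
  have hc : Fintype.card (MulAction.orbit G x) ≤ Fintype.card (Fin K) := by
    rw [Fintype.card_fin]
    rwa [Set.ncard_eq_toFinset_card', Set.toFinset_card] at hcard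
  obtain ⟨e⟩ := Function.Embedding.nonempty_of_card_le hc
  let ρ : G →* Equiv.Perm (Fin K) :=
    (Equiv.Perm.viaEmbeddingHom e).comp (MulAction.toPermHom G (MulAction.orbit G x))
  have h1 : ρ g = 1 := congrFun (MonoidHom.mem_ker.1 hg) ρ
  have h2 : MulAction.toPermHom G (MulAction.orbit G x) g = 1 := by
    apply Equiv.Perm.viaEmbeddingHom_injective e
    rw [map_one]
    exact h1
  have h3 := DFunLike.congr_fun h2 ⟨x, MulAction.mem_orbit_self x⟩
  have h4 := congrArg Subtype.val h3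
  simpa using h4

/-- the sizes of decomposable orbits are bounded in terms of `G`, `S` and `k` only -/
theorem orbit_bound (G : Type v) [Group G] [Group.IsFinitelyPresented G]
    (hG : IsMulTorsion G) (S : Set G) (hS : Subgroup.closure S = ⊤) (k : ℕ) :
    ∃ K : ℕ, ∀ (X : Type u) [MulAction G X] (ℱ : Set (Set X)),
      (∀ C ∈ ℱ, (bdry S C).encard ≤ k) →
      (∀ C ∈ ℱ, (k : ℕ∞) < C.encard →
        ∃ 𝒟 ⊆ ℱ, 𝒟.encard ≤ k ∧ (∀ D ∈ 𝒟, D ⊂ C) ∧ C ⊆ ⋃₀ 𝒟) →
      ∀ x : X, MulAction.orbit G x ∈ ℱ → (MulAction.orbit G x).encard ≤ K := by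
  obtain ⟨L, hL⟩ := chain_seq.{u, v} G hG S hS k
  refine ⟨(k + 1) ^ (L + 1), ?_⟩
  intro X _ ℱ h2 h3 x hx
  have desc : ∀ m : ℕ, ∀ C ∈ ℱ, (((k + 1) ^ (m + 1) : ℕ) : ℕ∞) < C.encard →
      ∃ f : ℕ → Set X, f 0 = C ∧ (∀ i ≤ m + 1, f i ∈ ℱ) ∧
        ∀ i j, i < j → j ≤ m + 1 → f j ⊂ f i := by
    intro m
    induction m with
    | zero =>
      intro C hC hcard
      have hk : (k : ℕ∞) < C.encard := by
        refine lt_of_le_of_lt ?_ hcard
        exact_mod_cast (by simp : k ≤ (k + 1) ^ (0 + 1))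
      obtain ⟨𝒟, hD1, hD2, hD3, hD4⟩ := h3 C hC hk
      have hne : C.Nonempty := by
        rw [← Set.encard_pos]
        exact lt_of_le_of_lt (by simp) hk
      obtain ⟨x, hx⟩ := hne
      obtain ⟨D, hD, -⟩ := hD4 hx
      refine ⟨fun i => if i = 0 then C else D, by simp, ?_, ?_⟩
      · intro i hi
        by_cases h : i = 0
        · simp only [h, if_true]; exact hC
        · simp only [h, if_false]; exact hD1 hD
      · intro i j hij hj
        have hi : i = 0 := by omega
        have hj' : j ≠ 0 := by omega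
        simp only [hi, hj', if_true, if_false]
        exact hD3 D hD
    | succ m ih =>
      intro C hC hcard
      have hk : (k : ℕ∞) < C.encard := by
        refine lt_of_le_of_lt ?_ hcard
        have : k ≤ (k + 1) ^ (m + 1 + 1) := by
          calc k ≤ k + 1 := by omega
            _ = (k + 1) ^ 1 := by simp
            _ ≤ (k + 1) ^ (m + 1 + 1) := Nat.pow_le_pow_right (by omega) (by omega)
        exact_mod_cast this
      obtain ⟨𝒟, hD1, hD2, hD3, hD4⟩ := h3 C hC hk
      obtain ⟨D, hD, hDc⟩ := decomp_step k ((k + 1) ^ (m + 1)) C 𝒟 hD2 hD4 (by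
        refine lt_of_le_of_lt ?_ hcard
        have : k * (k + 1) ^ (m + 1) ≤ (k + 1) ^ (m + 1 + 1) := by
          rw [pow_succ (k + 1) (m + 1), mul_comm]
          exact Nat.mul_le_mul_left _ (by omega)
        exact_mod_cast this)
      obtain ⟨f, hf0, hf1, hf2⟩ := ih D (hD1 hD) hDc
      refine ⟨fun i => if i = 0 then C else f (i - 1), by simp, ?_, ?_⟩
      · intro i hi
        by_cases h : i = 0
        · simp only [h, if_true]; exact hC
        · simp only [h, if_false]; exact hf1 _ (by omega)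
      · intro i j hij hj
        have hj' : j ≠ 0 := by omega
        by_cases h : i = 0
        · simp only [h, hj', if_true, if_false]
          have h5 : f (j - 1) ⊆ D := by
            by_cases h6 : j - 1 = 0
            · rw [h6, hf0]
            · have := hf2 0 (j - 1) (by omega) (by omega)
              rw [hf0] at this
              exact this.1
          exact lt_of_le_of_lt h5 (hD3 D hD)
        · simp only [h, hj', if_false]
          exact hf2 _ _ (by omega) (by omega)
  by_contra hcon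
  push Not at hcon
  obtain ⟨f, hf0, hf1, hf2⟩ := desc L _ hx hcon
  refine orbit_seq G S k L hL X x f (fun i j hij hj => hf2 i j hij (by omega)) ?_
    (fun i hi => h2 _ (hf1 i (by omega)))
  intro i hi
  by_cases h : i = 0
  · rw [h, hf0]
  · have := hf2 0 i (by omega) (by omega)
    rw [hf0] at this
    exact this.1

/-- a uniform normal subgroup of finite index acting trivially on all decomposable actions -/
theorem uniform_decomposable (G : Type v) [Group G] [Group.IsFinitelyPresented G]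
    (hG : IsMulTorsion G) (S : Set G) (hS : Subgroup.closure S = ⊤) (k : ℕ) :
    ∃ N : Subgroup G, N.Normal ∧ N.FiniteIndex ∧ ∀ (X : Type u) [MulAction G X] (ℱ : Set (Set X)),
      (∀ x : X, MulAction.orbit G x ∈ ℱ) →
      (∀ C ∈ ℱ, (bdry S C).encard ≤ k) →
      (∀ C ∈ ℱ, (k : ℕ∞) < C.encard →
        ∃ 𝒟 ⊆ ℱ, 𝒟.encard ≤ k ∧ (∀ D ∈ 𝒟, D ⊂ C) ∧ C ⊆ ⋃₀ 𝒟) →
      ∀ g ∈ N, ∀ x : X, g • x = x := by
  obtain ⟨K, hK⟩ := orbit_bound.{u, v} G hG S hS k
  obtain ⟨N, h1, h2, h3⟩ := exists_kernel.{u, v} G K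
  exact ⟨N, h1, h2, fun X _ ℱ f1 f2 f3 g hg x => h3 X x (hK X ℱ f2 f3 x (f1 x)) g hg⟩

/-- a uniform normal subgroup of finite index acting trivially on all transitive actions with a
Schreier graph of treewidth less than `k` -/
theorem uniform_treewidth (G : Type v) [Group G] [Group.IsFinitelyPresented G]
    (hG : IsMulTorsion G) (S : Set G) (hS : Subgroup.closure S = ⊤) (k : ℕ) :
    ∃ N : Subgroup G, N.Normal ∧ N.FiniteIndex ∧
      ∀ (X : Type u) [MulAction G X] [MulAction.IsPretransitive G X]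
        (V : Type w) (T : SimpleGraph V) (B : V → Set X), T.IsTree →
        (∀ t, (B t).encard ≤ k) →
        (∀ x : X, (T.induce {t | x ∈ B t}).Connected) →
        (∀ s ∈ S, ∀ x : X, ∃ t, x ∈ B t ∧ s • x ∈ B t) →
        ∀ g ∈ N, ∀ x : X, g • x = x := by
  obtain ⟨N, h1, h2, h3⟩ := uniform_decomposable.{u, v} G hG S hS (max k 2)
  refine ⟨N, h1, h2, ?_⟩
  intro X _ _ V T B hT hB hconn hcov g hg x
  obtain ⟨r⟩ := hT.connected.nonempty
  refine h3 X {Y | ∃ u Z, Good T r u Z ∧ Y = carr B u Z} ?_ ?_ ?_ g hg x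
  · intro x
    refine ⟨r, {t | t ≠ r}, ⟨by simp, by simp, fun t _ t' _ h => h⟩, ?_⟩
    rw [MulAction.orbit_eq_univ]
    symm
    rw [Set.eq_univ_iff_forall]
    intro y
    obtain ⟨t⟩ := (hconn y).nonempty
    by_cases h : t.1 = r
    · left; rw [← h]; exact t.2
    · right; exact ⟨t.1, h, t.2⟩
  · rintro _ ⟨u, Z, hg, rfl⟩
    refine (Set.encard_le_encard (hg.bdry hconn hcov)).trans ((hB u).trans ?_)
    exact_mod_cast le_max_left k 2
  · rintro C hC hcard
    have hk : (k : ℕ∞) < C.encard := by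
      refine lt_of_le_of_lt ?_ hcard
      exact_mod_cast le_max_left k 2
    obtain ⟨u₁, Z₁, u₂, Z₂, g1, g2, s1, s2, hcover⟩ := tree_step hT r k hB hconn C hk hC
    refine ⟨{carr B u₁ Z₁, carr B u₂ Z₂}, ?_, ?_, ?_, ?_⟩
    · rintro D (rfl | rfl)
      · exact ⟨u₁, Z₁, g1, rfl⟩
      · exact ⟨u₂, Z₂, g2, rfl⟩
    · refine (Set.encard_insert_le _ _).trans ?_
      rw [Set.encard_singleton]
      have : ((1 + 1 : ℕ) : ℕ∞) ≤ ((max k 2 : ℕ) : ℕ∞) := by
        exact_mod_cast le_max_right k 2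
      exact_mod_cast this
    · rintro D (rfl | rfl)
      · exact s1
      · exact s2
    · intro x hx
      rcases hcover hx with h | h
      · exact ⟨_, Or.inl rfl, h⟩
      · exact ⟨_, Or.inr rfl, h⟩

end Vale.Agent.P192
end
end

section

section

set_option linter.all false

namespace Vale.Agent.P192

universe u v

/-- balls in a `G`-set -/
def ballS {G : Type v} {X : Type u} [Group G] [MulAction G X] (S : Set G) (x : X) (n : ℕ) : Set X :=
  {y | ∃ w : List G, (∀ s ∈ w, s ∈ S ∨ s⁻¹ ∈ S) ∧ w.length ≤ n ∧ w.prod • x = y}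

theorem ballS_mono {G : Type v} {X : Type u} [Group G] [MulAction G X] (S : Set G) (x : X)
    {m n : ℕ} (h : m ≤ n) : ballS S x m ⊆ ballS S x n := by
  rintro y ⟨w, h1, h2, h3⟩
  exact ⟨w, h1, h2.trans h, h3⟩

theorem ballS_succ {G : Type v} {X : Type u} [Group G] [MulAction G X] (S : Set G) (x : X)
    {n : ℕ} {y : X} (hy : y ∈ ballS S x n) {s : G} (hs : s ∈ S ∨ s⁻¹ ∈ S) :
    s • y ∈ ballS S x (n + 1) := by
  obtain ⟨w, h1, h2, rfl⟩ := hy
  refine ⟨s :: w, ?_, by simp; exact h2, by rw [List.prod_cons, mul_smul]⟩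
  intro t ht
  rcases List.mem_cons.1 ht with rfl | ht
  · exact hs
  · exact h1 t ht

theorem bdry_ballS {G : Type v} {X : Type u} [Group G] [MulAction G X] (S : Set G) (x : X)
    (n : ℕ) : bdry S (ballS S x (n + 1)) ⊆ ballS S x (n + 1) \ ballS S x n := by
  rintro y ⟨hy, s, hs, h⟩
  refine ⟨hy, fun hy' => ?_⟩
  rcases h with h | h
  · exact h (ballS_succ S x hy' (Or.inl hs))
  · exact h (ballS_succ S x hy' (Or.inr (by rwa [inv_inv])))

theorem ballS_stable {G : Type v} {X : Type u} [Group G] [MulAction G X]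
    [MulAction.IsPretransitive G X] (S : Set G) (hS : Subgroup.closure S = ⊤) (x : X) (n : ℕ)
    (h : ballS S x (n + 1) ⊆ ballS S x n) : ballS S x n = Set.univ := by
  have h0 : ∀ w : List G, (∀ s ∈ w, s ∈ S ∨ s⁻¹ ∈ S) → w.prod • x ∈ ballS S x n := by
    intro w hw
    induction w with
    | nil => exact ⟨[], by simp, by simp, rfl⟩
    | cons s w ih =>
      rw [List.prod_cons, mul_smul]
      exact h (ballS_succ S x (ih fun t ht => hw t (by simp [ht])) (hw s (by simp)))
  rw [Set.eq_univ_iff_forall]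
  intro y
  obtain ⟨g, rfl⟩ := MulAction.exists_smul_eq G x y
  obtain ⟨w, hw, rfl⟩ := exists_list S hS g
  exact h0 w hw

/-- Transitive actions of finitely presented periodic groups have superlinear growth, uniformly. -/
theorem growth_gap (G : Type v) [Group G] [Group.IsFinitelyPresented G] (hG : IsMulTorsion G)
    (S : Set G) (hS : Subgroup.closure S = ⊤) (c : ℕ) :
    ∃ n₀ : ℕ, ∀ (X : Type u) [MulAction G X] [MulAction.IsPretransitive G X] (x : X),
      ∀ n ≥ n₀, ballS S x n = Set.univ ∨ ((c * n : ℕ) : ℕ∞) ≤ (ballS S x n).encard := by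
  classical
  obtain ⟨L, hL⟩ := chain_bound.{u, v} G hG S hS (2 * c)
  refine ⟨2 * L, ?_⟩
  intro X _ _ x n hn
  by_cases huniv : ballS S x n = Set.univ
  · exact Or.inl huniv
  right
  have hstrict : ∀ m < n, ¬ ballS S x (m + 1) ⊆ ballS S x m := by
    intro m hm h
    apply huniv
    have h1 := ballS_stable S hS x m h
    rw [Set.eq_univ_iff_forall] at h1 ⊢
    exact fun y => ballS_mono S x hm.le (h1 y)
  -- the small spheres
  let I : Finset ℕ := (Finset.range n).filter
    (fun m => (ballS S x (m + 1) \ ballS S x m).encard ≤ ((2 * c : ℕ) : ℕ∞))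
  have hI : I.card ≤ L := by
    have h1 := hL X ((fun m => ballS S x (m + 1)) '' (I : Set ℕ)) (by
      rintro _ ⟨a, -, rfl⟩ _ ⟨b, -, rfl⟩ _
      rcases le_total a b with h | h
      · exact Or.inl (ballS_mono S x (by omega))
      · exact Or.inr (ballS_mono S x (by omega))) (by
      rintro _ ⟨a, ha, rfl⟩
      have ha' := (Finset.mem_filter.1 (Finset.mem_coe.1 ha)).2
      exact (Set.encard_le_encard (bdry_ballS S x a)).trans ha')
    have hinj : Set.InjOn (fun m => ballS S x (m + 1)) (I : Set ℕ) := by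
      have key : ∀ a b : ℕ, a < b → b ∈ I → ballS S x (a + 1) ≠ ballS S x (b + 1) := by
        intro a b hab hb h
        have hb' := Finset.mem_range.1 (Finset.mem_filter.1 hb).1
        apply hstrict b hb'
        rw [← h]
        exact ballS_mono S x (by omega)
      intro a ha b hb hab
      rcases lt_trichotomy a b with h | h | h
      · exact absurd hab (key a b h (Finset.mem_coe.1 hb))
      · exact h
      · exact absurd hab.symm (key b a h (Finset.mem_coe.1 ha))
    rw [hinj.encard_image, Set.encard_coe_eq_coe_finsetCard] at h1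
    exact_mod_cast h1
  -- counting
  have hcount : ∀ m ≤ n, (((2 * c) * ((Finset.range m).filter
      (fun i => ¬ (ballS S x (i + 1) \ ballS S x i).encard ≤ ((2 * c : ℕ) : ℕ∞))).card : ℕ) : ℕ∞) ≤
      (ballS S x m).encard := by
    intro m
    induction m with
    | zero => intro _; simp
    | succ m ih =>
      intro hm
      have h1 := ih (by omega)
      rw [Finset.range_add_one, Finset.filter_insert]
      have h2 : (ballS S x (m + 1)).encard =
          (ballS S x m).encard + (ballS S x (m + 1) \ ballS S x m).encard := by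
        rw [← Set.encard_union_eq (by exact Set.disjoint_sdiff_right)]
        rw [Set.union_diff_cancel (ballS_mono S x (Nat.le_succ m))]
      split_ifs with h3
      · rw [h2]
        exact h1.trans le_self_add
      · rw [Finset.card_insert_of_notMem (by simp), mul_add, mul_one, Nat.cast_add, h2]
        exact add_le_add h1 (le_of_lt (not_le.1 h3))
  refine le_trans ?_ (hcount n le_rfl)
  have h4 : I.card + ((Finset.range n).filter
      (fun i => ¬ (ballS S x (i + 1) \ ballS S x i).encard ≤ ((2 * c : ℕ) : ℕ∞))).card = n := by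
    rw [Finset.card_filter_add_card_filter_not, Finset.card_range]
  have h5 : c * n ≤ (2 * c) * ((Finset.range n).filter
      (fun i => ¬ (ballS S x (i + 1) \ ballS S x i).encard ≤ ((2 * c : ℕ) : ℕ∞))).card := by
    have h6 : n ≤ 2 * ((Finset.range n).filter
      (fun i => ¬ (ballS S x (i + 1) \ ballS S x i).encard ≤ ((2 * c : ℕ) : ℕ∞))).card := by omega
    calc c * n ≤ c * (2 * _) := Nat.mul_le_mul_left c h6
      _ = _ := by ring
  exact_mod_cast h5

end Vale.Agent.P192
end
end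

section

section

set_option linter.all false

namespace Vale.Agent.P192

universe u v w

theorem range_finite_of_kernel {G : Type v} [Group G] {P : Type u} [Group P] (ρ : G →* P)
    (N : Subgroup G) (hN : N.FiniteIndex) (h : ∀ g ∈ N, ρ g = 1) : Finite ρ.range := by
  have h1 : N ≤ ρ.ker := fun g hg => h g hg
  haveI := hN
  haveI : ρ.ker.FiniteIndex := Subgroup.finiteIndex_of_le h1
  haveI : Finite (G ⧸ ρ.ker) := Subgroup.finite_quotient_of_finiteIndex
  exact Finite.of_equiv _ (QuotientGroup.quotientKerEquivRange ρ).toEquiv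

theorem activity_kernel (A : Type) [Finite A] (G : Type v) [Group G]
    [Group.IsFinitelyPresented G] (hG : IsMulTorsion G) [MulAction G (List A)]
    (hlen : ∀ (g : G) (v : List A), (g • v).length = v.length)
    (hb : ∀ g : G, ∃ M : ℕ, ∀ n : ℕ,
      {v : List A | v.length = n ∧ ∃ w : List A, g • (v ++ w) ≠ g • v ++ w}.encard ≤ M) :
    ∃ N : Subgroup G, N.Normal ∧ N.FiniteIndex ∧ ∀ g ∈ N, ∀ x : List A, g • x = x := by
  classical
  obtain ⟨n, φ, hφ, -⟩ := ‹Group.IsFinitelyPresented G›.out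
  let S : Set G := Set.range (fun i : Fin n => φ (FreeGroup.of i))
  have hSfin : S.Finite := Set.finite_range _
  have hS : Subgroup.closure S = ⊤ := by
    have h1 : S = φ '' (Set.range (FreeGroup.of : Fin n → FreeGroup (Fin n))) := by
      rw [← Set.range_comp]; rfl
    rw [h1, ← MonoidHom.map_closure, FreeGroup.closure_range_of, ← MonoidHom.range_eq_map,
      MonoidHom.range_eq_top.2 hφ]
  choose c hc using hb
  let T : Finset G := (hSfin.union (hSfin.image (fun g => g⁻¹))).toFinset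
  have hT : ∀ g, g ∈ T ↔ (g ∈ S ∨ g ∈ (fun g => g⁻¹) '' S) := by
    intro g; simp only [T, Set.Finite.mem_toFinset, Set.mem_union]
  let k : ℕ := max (Nat.card A) (∑ g ∈ T, c g) + 1
  let F : Set (Set (List A)) :=
    {C | ∃ x u : List A, C = {w | w ∈ MulAction.orbit G x ∧ u <:+ w}}
  have horb : ∀ x w : List A, w ∈ MulAction.orbit G x → w.length = x.length := by
    rintro x _ ⟨g, rfl⟩
    exact hlen g x
  obtain ⟨N, hN1, hN2, hN3⟩ := uniform_decomposable.{0, v} G hG S hS k
  refine ⟨N, hN1, hN2, hN3 (List A) F ?_ ?_ ?_⟩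
  · intro x
    exact ⟨x, [], by ext w; simp⟩
  · rintro _ ⟨x, u, rfl⟩
    have hsub : bdry S {w | w ∈ MulAction.orbit G x ∧ u <:+ w} ⊆
        ⋃ g ∈ T, (fun v => v ++ u) '' {v : List A | v.length = x.length - u.length ∧
          ∃ w : List A, g • (v ++ w) ≠ g • v ++ w} := by
      rintro w ⟨⟨hw1, hw2⟩, s, hs, h⟩
      have key : ∀ g ∈ T, g • w ∉ {w | w ∈ MulAction.orbit G x ∧ u <:+ w} →
          w ∈ ⋃ g ∈ T, (fun v => v ++ u) '' {v : List A | v.length = x.length - u.length ∧
          ∃ w : List A, g • (v ++ w) ≠ g • v ++ w} := by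
        intro g hgT hg
        obtain ⟨v, rfl⟩ := hw2
        have h1 : g • (v ++ u) ∈ MulAction.orbit G x :=
          MulAction.mem_orbit_of_mem_orbit g hw1
        have h2 : ¬ (u <:+ g • (v ++ u)) := fun h => hg ⟨h1, h⟩
        have h3 := horb x _ hw1
        simp only [Set.mem_iUnion]
        refine ⟨g, hgT, v, ⟨?_, u, ?_⟩, rfl⟩
        · rw [List.length_append] at h3; omega
        · intro h4
          apply h2
          rw [h4]
          exact List.suffix_append _ _
      rcases h with h | h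
      · exact key s ((hT s).2 (Or.inl hs)) h
      · exact key s⁻¹ ((hT _).2 (Or.inr ⟨s, hs, rfl⟩)) h
    refine (Set.encard_le_encard hsub).trans ?_
    refine (Finset.set_encard_biUnion_le _ _).trans ?_
    have h5 : ∑ g ∈ T, ((fun v => v ++ u) '' {v : List A | v.length = x.length - u.length ∧
          ∃ w : List A, g • (v ++ w) ≠ g • v ++ w}).encard ≤ ∑ g ∈ T, (c g : ℕ∞) := by
      apply Finset.sum_le_sum
      intro g _
      exact (Set.encard_image_le _ _).trans (hc g _)
    refine h5.trans ?_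
    have h6 : ∑ g ∈ T, c g ≤ k := by
      have := le_max_right (Nat.card A) (∑ g ∈ T, c g)
      show _ ≤ max (Nat.card A) (∑ g ∈ T, c g) + 1
      omega
    exact_mod_cast h6
  · rintro C hCF hC
    obtain ⟨x, u0, hu0⟩ := hCF
    have h1C : 1 < C.encard := by
      refine lt_of_le_of_lt ?_ hC
      have : 1 ≤ k := by show 1 ≤ max (Nat.card A) (∑ g ∈ T, c g) + 1; omega
      exact_mod_cast this
    obtain ⟨y, hy⟩ : C.Nonempty := by
      rw [← Set.encard_pos]
      exact lt_trans (by simp) h1C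
    -- choose the longest representation
    let P : ℕ → Prop := fun m => ∃ u : List A, u.length = m ∧
      C = {w | w ∈ MulAction.orbit G x ∧ u <:+ w}
    have hbound : ∀ m, P m → m ≤ x.length := by
      rintro m ⟨u, rfl, hu⟩
      rw [hu] at hy
      rw [← horb x y hy.1]
      exact hy.2.length_le
    obtain ⟨m, hm, hmax⟩ : ∃ m, P m ∧ ∀ m', P m' → m' ≤ m := by
      have hex : ∃ m, P m := ⟨u0.length, u0, rfl, hu0⟩
      refine ⟨Nat.findGreatest P x.length, Nat.findGreatest_spec (hbound _ hex.choose_spec)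
        hex.choose_spec, ?_⟩
      intro m' hm'
      exact Nat.le_findGreatest (hbound _ hm') hm'
    obtain ⟨u, hum, hu⟩ := hm
    refine ⟨Set.range (fun a : A => {w | w ∈ MulAction.orbit G x ∧ (a :: u) <:+ w}), ?_, ?_, ?_, ?_⟩
    · rintro _ ⟨a, rfl⟩
      exact ⟨x, a :: u, rfl⟩
    · rw [← Set.image_univ]
      refine (Set.encard_image_le _ _).trans ?_
      rw [Set.encard_univ, ENat.card_eq_coe_natCard]
      have : Nat.card A ≤ k := by
        have := le_max_left (Nat.card A) (∑ g ∈ T, c g)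
        show _ ≤ max (Nat.card A) (∑ g ∈ T, c g) + 1
        omega
      exact_mod_cast this
    · rintro _ ⟨a, rfl⟩
      have hsub : {w | w ∈ MulAction.orbit G x ∧ (a :: u) <:+ w} ⊆ C := by
        rw [hu]
        rintro w ⟨h1, h2⟩
        exact ⟨h1, (List.suffix_cons a u).trans h2⟩
      refine hsub.ssubset_of_ne ?_
      intro h
      have := hmax (m + 1) ⟨a :: u, by simp [hum], h.symm⟩
      omega
    · intro w hw
      have hw' := hw
      rw [hu] at hw'
      obtain ⟨h1, v, hv⟩ := hw'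
      rcases List.eq_nil_or_concat v with h2 | ⟨v', a, h2⟩
      · exfalso
        subst h2
        simp only [List.nil_append] at hv
        -- then C has at most one element
        have h3 : C ⊆ {w} := by
          intro z hz
          rw [hu] at hz
          obtain ⟨hz1, hz2⟩ := hz
          have h4 : z.length = w.length := (horb x z hz1).trans (horb x w h1).symm
          rw [Set.mem_singleton_iff, ← hv]
          exact (hz2.eq_of_length (by rw [h4, hv])).symm
        have h4 := Set.encard_le_encard h3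
        rw [Set.encard_singleton] at h4
        exact absurd h1C (not_lt.2 h4)
      · refine ⟨_, ⟨a, rfl⟩, h1, v', ?_⟩
        rw [← hv, h2]
        simp


/-- every homomorphism from a finitely presented periodic group to the group of bounded
automorphisms of a regular rooted tree has finite image -/
theorem activity_image (A : Type) [Finite A] (G : Type v) [Group G]
    [Group.IsFinitelyPresented G] (hG : IsMulTorsion G) (ρ : G →* Equiv.Perm (List A))
    (hlen : ∀ (g : G) (v : List A), (ρ g v).length = v.length)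
    (hb : ∀ g : G, ∃ M : ℕ, ∀ n : ℕ,
      {v : List A | v.length = n ∧ ∃ w : List A, ρ g (v ++ w) ≠ ρ g v ++ w}.encard ≤ M) :
    Finite ρ.range := by
  letI : MulAction G (List A) := MulAction.compHom (List A) ρ
  obtain ⟨N, h1, h2, h3⟩ := activity_kernel A G hG hlen hb
  refine range_finite_of_kernel ρ N h2 fun g hg => ?_
  ext1 x
  exact h3 g hg x

/-- orbits in a linear order with bounded cuts have bounded size -/
theorem cutwidth_orbits (G : Type v) [Group G] [Group.IsFinitelyPresented G]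
    (hG : IsMulTorsion G) (S : Set G) (hS : Subgroup.closure S = ⊤) (k : ℕ) :
    ∃ L : ℕ, ∀ (X : Type u) [LinearOrder X] [MulAction G X],
      (∀ x : X, {y | y ∈ MulAction.orbit G x ∧ y ≤ x ∧
        ∃ s ∈ S, x < s • y ∨ x < s⁻¹ • y}.encard ≤ k) →
      ∀ x : X, (MulAction.orbit G x).encard ≤ L := by
  obtain ⟨L, hL⟩ := chain_bound.{u, v} G hG S hS k
  refine ⟨L, ?_⟩
  intro X _ _ h x
  let J : MulAction.orbit G x → Set (MulAction.orbit G x) := fun y => {z | z.1 ≤ y.1}
  have hinj : Function.Injective J := by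
    intro y z hyz
    have h1 : y ∈ J z := by rw [← hyz]; exact le_refl y.1
    have h2 : z ∈ J y := by rw [hyz]; exact le_refl z.1
    exact Subtype.ext (le_antisymm h1 h2)
  have h1 := hL (MulAction.orbit G x) (Set.range J) (by
    rintro _ ⟨y, rfl⟩ _ ⟨z, rfl⟩ _
    rcases le_total y.1 z.1 with hyz | hyz
    · left; exact fun w hw => le_trans hw hyz
    · right; exact fun w hw => le_trans hw hyz) (by
    rintro _ ⟨y, rfl⟩
    refine le_trans ?_ (h y.1)
    rw [← Subtype.val_injective.encard_image (bdry S (J y))]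
    apply Set.encard_le_encard
    rintro _ ⟨w, ⟨hw, s, hs, hw'⟩, rfl⟩
    refine ⟨?_, hw, s, hs, ?_⟩
    · rw [MulAction.orbit_eq_iff.2 y.2]; exact w.2
    · rcases hw' with hw' | hw'
      · left; exact not_le.1 hw'
      · right; exact not_le.1 hw')
  rw [← Set.image_univ, hinj.encard_image, Set.encard_univ] at h1
  exact h1

/-- every homomorphism from a finitely presented periodic group to the group of permutations of
the integers of bounded displacement has finite image -/
theorem displacement_image (G : Type v) [Group G] [Group.IsFinitelyPresented G]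
    (hG : IsMulTorsion G) (ρ : G →* Equiv.Perm ℤ)
    (hb : ∀ g : G, ∃ c : ℕ, ∀ n : ℤ, |ρ g n - n| ≤ c) : Finite ρ.range := by
  obtain ⟨n, φ, hφ, -⟩ := ‹Group.IsFinitelyPresented G›.out
  let S : Set G := Set.range (fun i : Fin n => φ (FreeGroup.of i))
  have hSfin : S.Finite := Set.finite_range _
  have hS : Subgroup.closure S = ⊤ := by
    have h1 : S = φ '' (Set.range (FreeGroup.of : Fin n → FreeGroup (Fin n))) := by
      rw [← Set.range_comp]; rfl
    rw [h1, ← MonoidHom.map_closure, FreeGroup.closure_range_of, ← MonoidHom.range_eq_map,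
      MonoidHom.range_eq_top.2 hφ]
  choose c hc using hb
  obtain ⟨c0, hc0⟩ : ∃ c0, ∀ s ∈ S, c s ≤ c0 := by
    obtain ⟨b, hb⟩ := (hSfin.image c).bddAbove
    exact ⟨b, fun w hw => hb ⟨w, hw, rfl⟩⟩
  letI : MulAction G ℤ := MulAction.compHom ℤ ρ
  have hsm : ∀ (g : G) (m : ℤ), g • m = ρ g m := fun _ _ => rfl
  obtain ⟨L, hL⟩ := cutwidth_orbits.{0, v} G hG S hS c0
  obtain ⟨N, h1, h2, h3⟩ := exists_kernel.{0, v} G L
  refine range_finite_of_kernel ρ N h2 fun g hg => ?_
  ext1 x
  refine h3 ℤ x (hL ℤ ?_ x) g hg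
  intro x
  have hsub : {y : ℤ | y ∈ MulAction.orbit G x ∧ y ≤ x ∧ ∃ s ∈ S, x < s • y ∨ x < s⁻¹ • y} ⊆
      (Finset.Ioc (x - c0) x : Finset ℤ) := by
    rintro y ⟨-, hy, s, hs, h⟩
    have h1 := hc0 s hs
    rw [Finset.coe_Ioc]
    refine ⟨?_, hy⟩
    rcases h with h | h
    · have h2 := hc s y
      rw [hsm] at h
      rw [abs_le] at h2
      have : (c s : ℤ) ≤ c0 := by exact_mod_cast h1
      linarith [h2.2]
    · have h2 := hc s (s⁻¹ • y)
      have h3 : ρ s (s⁻¹ • y) = y := by
        rw [← hsm, smul_inv_smul]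
      rw [h3, abs_le] at h2
      have : (c s : ℤ) ≤ c0 := by exact_mod_cast h1
      linarith [h2.1]
  refine (Set.encard_le_encard hsub).trans ?_
  rw [Set.encard_coe_eq_coe_finsetCard]
  simp

end Vale.Agent.P192
end
end
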